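import Vale.Agent.P022E.W.Loc
import Vale.Agent.P022E.Fm.Defs

/-!
P022F: the hypotheses on the fixed data of the forms side.
-/

set_option linter.all false

open scoped MatrixGroups

noncomputable section

namespace Vale.Agent.P022E.Loc

open NumberField IsLocalRing
open Vale.Agent.P022 Vale.Agent.P022.H443 Vale.Agent.P022D Vale.Agent.P022D.R Vale.Agent.P022D.W
open Vale.Agent.P027M.S (mx)
open Vale.Agent.P022D.Sel (M2 IsDec)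
open Vale.Agent.P022E.As (Tg cc tt Gp0 yT)

variable {O F : Type} [CommRing O] [Field F]

/-- the residual representation has open kernel -/
structure DhP (ρ : GQ →* GL (Fin 2) F) : Prop where
  opn : IsOpen {g : GQ | ρ g = 1}

/-- the hypotheses on the local data -/
structure Pl.OkF [IsLocalRing O] (L : Pl O) (S : Dat O F) : Prop where
  ker : ∀ c, S.red c = 0 ↔ c ∈ maximalIdeal O
  dh : DhP S.rb
  det : ∀ g, (mx S.rb g).det = 1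
  hT : S.T = insert 0 (insert 2 (L.W ∪ L.C))
  dj : Disjoint L.W L.C
  pr : ∀ l ∈ L.W ∪ L.C, l.Prime ∧ l ≠ 2
  hP : ∀ l ∈ L.W ∪ L.C, (L.P l).IsPrime ∧ (l : 𝓞 Qb) ∈ L.P l
  h2 : L.P 2 = Loc2.PP 2
  cj : IsConj L.c
  tm : ∀ l ∈ L.W ∪ L.C, Tm l (L.P l) (L.τ l) (L.φ l)
  dg : ∀ l ∈ L.W, ∀ g ∈ L.Hl l, L.rb S l g 0 1 = 0 ∧ L.rb S l g 1 0 = 0
  ad : ∀ l ∈ L.W, ∀ g ∈ W.dec (L.P l), g ∉ L.Hl l → L.rb S l g 0 0 = 0 ∧ L.rb S l g 1 1 = 0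
  reg : ∀ l ∈ L.W, L.g0 l ∈ W.dec (L.P l) ∧ L.g0 l ∈ L.Hl l ∧
    L.rb S l (L.g0 l) 0 0 ≠ L.rb S l (L.g0 l) 1 1
  uni : ∀ l ∈ L.C, ∀ g ∈ W.dec (L.P l), (mx S.rb g).trace = 0
  lift : ∀ g, (L.r g).map S.red = mx S.rb g
  cont : ∀ k : ℕ, IsOpen {g : GQ | (L.r g).map (Ideal.Quotient.mk (maximalIdeal O ^ k)) = 1}
  odd : (L.r L.c).det = -1
  ty : ∀ l ∈ L.W, ∃ y : O, Rt L.r (L.g0 l) y ∧ S.red y = L.rb S l (L.g0 l) 1 1 ∧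
    En L.r (L.g0 l) (L.τ l) y (L.a l)
  sep : ∀ l ∈ L.C, (∀ g, (mx S.rb (g * L.τ l)).trace = (mx S.rb g).trace) → mx S.rb (L.τ l) = 1
  wl : ∀ l ∈ L.W, ∀ e u v, Wc S L l e u v → ∀ a b m w : ℕ, Odd m → Odd w → l = 2 ^ a * m + 1 →
    l + 1 = 2 ^ b * w → ∀ x : O, x * (L.r (L.τ l)).det = 1 → ∀ I : Ideal (Tg O), Gp0 L.r I →
    WRel L l a b x (cW e u v) (zW L l e u) MvPolynomial.C tt As.dd (fun p q => p - q ∈ I)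
      (yT L l e u v 0) (yT L l e u v 1) (As.dd (L.τ l) * cc x)

end Vale.Agent.P022E.Loc

namespace Vale.Agent.P022E.Fm

open Vale.Agent.P022 Vale.Agent.P022E.V Vale.Agent.P027M.M
open Vale.Agent.P022E.G (Wd wT wS Inert)
open Vale.Agent.P022E.W.Step (kl Cs)
open Vale.Agent.P027M.S (mx)

variable {O F : Type} [CommRing O] [Field F]

/-- the hypotheses on the fixed data -/
structure Su.OkF [IsLocalRing O] [Co O] (U : Su O F) : Prop where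
  ok : U.L.OkF U.S
  uni : Unif U.ϖ
  hi : 1 ≤ U.i
  NC : U.NC = ∏ l ∈ U.L.C, l
  NW0 : U.NW ≠ 0
  NW : ∀ l : ℕ, l.Prime → (l ∣ U.NW ↔ l ∈ U.L.W)
  W3 : U.L.W.Nonempty ∨ ∃ l ∈ U.L.C, mx U.S.rb (U.L.τ l) ≠ 1
  z : Co.j U.z = ze U.N 1
  two : ∀ l ∈ U.L.W, ∃ y : O, IsPrimitiveRoot y (l ^ 2 - 1)
  om1 : U.om 1 = 1
  omm : ∀ x y, U.om (x * y) = U.om x * U.om y
  omp : ∀ x y, x ≡ y [MOD U.N] → U.om x = U.om y
  det : ∀ j : ℕ, ∃ a : ℕ, ∀ (g : GQ) (x : ℕ), Nat.Coprime x U.N → Cy (2 ^ a * U.N) g x →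
    U.ϖ ^ j ∣ U.dt g - U.om x * (x : O) ^ U.i
  unr : ∀ l : ℕ, l.Prime → l ∉ U.S.T → ∀ g, Inert l g → U.L.r g = 1
  wc : ∀ l ∈ U.L.W, ∃ e u v, Loc.Wc U.S U.L l e u v
  omr : ∀ x, Nat.Coprime x U.N → U.ϖ ∣ U.om x - 1
  lam : U.S.red U.S.lam = mx U.S.rb U.S.g1 0 1
  N0 : U.N0 ∣ U.N
  res : ∀ [NeZero U.N0], ∃ k : ℕ, ∀ X : Wd U.N0, (∀ j < k, G.sg U.N0 j X = 0) →
    U.ϖ ∣ FreeAlgebra.lift ℤ (U.sys U.N0) X
  ram : ∀ l ∈ U.L.C, l ∣ U.N0 → mx U.S.rb (U.L.τ l) ≠ 1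

end Vale.Agent.P022E.Fm
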