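import Vale.Agent.P022E.Fm.Dia
import Vale.Agent.P022F.Pt.Base

/-!
# P022D, forms side: levels, diamond operators and cyclicity for the modules of forms
-/

set_option linter.all false

noncomputable section

namespace Vale.Agent.P022E.Fm

open Vale.Agent.P022 Vale.Agent.P027M.M Vale.Agent.P022D.V Vale.Agent.P022E.V Vale.Agent.P022D.As
  Vale.Agent.P022E.As
open Vale.Agent.P027M.S (mx)

variable {O F : Type} [CommRing O] [Field F] [Co O] {U : Su O F}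

namespace Di

variable [IsLocalRing O]

theorem mem_of_dvdF (hU : U.OkF) {l : ℕ} (hl : l.Prime) (hd : l ∣ U.N) : l ∈ U.L.W ∪ U.L.C := by
  rcases (hl.dvd_mul).1 hd with h | h
  · exact Finset.mem_union_left _ ((hU.NW l hl).1 h)
  · rw [hU.NC] at h
    obtain ⟨p, hp, h⟩ := (Prime.dvd_finset_prod_iff hl.prime _).1 h
    rw [(Nat.prime_dvd_prime_iff_eq hl (hU.ok.pr p (Finset.mem_union_right _ hp)).1).1 h]
    exact Finset.mem_union_right _ hp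

theorem dvd_of_memF (hU : U.OkF) {l : ℕ} (hl : l ∈ U.L.W ∪ U.L.C) : l ∣ U.N := by
  rcases Finset.mem_union.1 hl with h | h
  · exact ((hU.NW l (hU.ok.pr l hl).1).2 h).mul_right _
  · refine Dvd.dvd.mul_left ?_ _
    rw [hU.NC]
    exact Finset.dvd_prod_of_mem _ h

theorem odd_NF (hU : U.OkF) : Odd U.N := by
  rw [← Nat.not_even_iff_odd, even_iff_two_dvd]
  exact fun h => (hU.ok.pr 2 (mem_of_dvdF hU Nat.prime_two h)).2 rfl

theorem three_leF (hU : U.OkF) : 3 ≤ U.N := by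
  obtain ⟨l, hl⟩ : ∃ l, l ∈ U.L.W ∪ U.L.C := hU.W3.elim
    (fun ⟨l, h⟩ => ⟨l, Finset.mem_union_left _ h⟩) fun ⟨l, h, _⟩ => ⟨l, Finset.mem_union_right _ h⟩
  have h1 := Nat.le_of_dvd (odd_NF hU).pos (dvd_of_memF hU hl)
  have h2 := (hU.ok.pr l hl).1.two_le
  have h3 := (hU.ok.pr l hl).2
  omega

theorem not_dvdF (hU : U.OkF) {q : ℕ} (hq : q.Prime) (h : q ∉ U.S.T) : ¬ q ∣ U.N := fun e => h (by
  rw [hU.ok.hT]
  exact Finset.mem_insert_of_mem (Finset.mem_insert_of_mem (mem_of_dvdF hU hq e)))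

theorem ne_twoF (hU : U.OkF) {q : ℕ} (h : q ∉ U.S.T) : q ≠ 2 := fun e => h (by
  rw [hU.ok.hT, e]
  exact Finset.mem_insert_of_mem (Finset.mem_insert_self _ _))

theorem odd_MF (hU : U.OkF) {r : ℕ} {q : Fin r → ℕ} (h : ∀ i, (q i).Prime ∧ q i ∉ U.S.T) :
    Odd (U.N * ∏ i, q i) :=
  (odd_NF hU).mul (Finset.prod_induction _ Odd (fun _ _ => Odd.mul) odd_one fun i _ =>
    (h i).1.odd_of_ne_two (ne_twoF hU (h i).2))

theorem z_powF (hU : U.OkF) : U.z ^ U.N = 1 := Co.inj (by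
  have h : (U.N : ℂ) ≠ 0 := by exact_mod_cast (odd_NF hU).pos.ne'
  rw [map_pow, hU.z, map_one, ze, ← Complex.exp_nat_mul, ← Complex.exp_two_pi_mul_I]
  congr 1
  push_cast
  field_simp)

end Di

variable {r n M : ℕ} {q : Fin r → ℕ} {b : Fin r → (ZMod M)ˣ} {τ : Fin r → GQ}

/-- a level consists of auxiliary data -/
theorem Lv.auxF [IsLocalRing O] (hU : U.OkF) (V : Lv U r n M q b τ) : Aux M U.N n q b :=
  ⟨V.eq ▸ Di.odd_MF hU V.pr, V.eq, V.inj, fun i => ⟨(V.pr i).1, Di.not_dvdF hU (V.pr i).1 (V.pr i).2⟩,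
    V.b1, V.gen⟩

theorem Lv.lamF [IsLocalRing O] (hU : U.OkF) (V : Lv U r n M q b τ) :
    ∃ lam : Fin r → (ZMod M)ˣ →* Multiplicative (ZMod (2 ^ n)), Lam q b lam :=
  (V.auxF hU).lam fun j => (pow_dvd_pow 2 n.le_succ).trans (V.one j)

/-- **levels exist** -/
theorem exLvF [IsLocalRing O] (hU : U.OkF) (inj : Function.Injective q)
    (pr : ∀ i, (q i).Prime ∧ q i ∉ U.S.T) (one : ∀ i, 2 ^ (n + 1) ∣ q i - 1)
    (two : ∀ i, ∃ x : ZMod (q i), x ^ 2 ^ n = 2) :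
    ∃ (b : Fin r → (ZMod (U.N * ∏ i, q i))ˣ) (τ : Fin r → GQ),
      Lv U r n (U.N * ∏ i, q i) q b τ := by
  have hM := Di.odd_MF hU pr
  have : NeZero (U.N * ∏ i, q i) := ⟨hM.pos.ne'⟩
  obtain ⟨τ, lam, h1, h2, -⟩ := exists_tau (n := n) hM rfl inj
    (fun i => ⟨(pr i).1, Di.not_dvdF hU (pr i).1 (pr i).2⟩)
    fun j => (pow_dvd_pow 2 n.le_succ).trans (one j)
  exact ⟨_, τ, inj, pr, rfl, one, two, h2.one, h2.gen, h1, fun i ζ h => H853.cyc_spec _ h⟩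

/-- **levels exist for auxiliary primes** -/
theorem exLv_aqF [IsLocalRing O] (hU : U.OkF) {A : Finset ℕ} {n₀ : ℕ} (h0 : 1 ≤ n₀)
    (inj : Function.Injective q) (h : ∀ i, Aq U.S.rb (A ∪ U.S.T) (n + n₀) (q i)) :
    ∃ (b : Fin r → (ZMod (U.N * ∏ i, q i))ˣ) (τ : Fin r → GQ),
      Lv U r n (U.N * ∏ i, q i) q b τ :=
  exLvF hU inj (fun i => ⟨(h i).prime, fun e => (h i).out (Finset.mem_union_right _ e)⟩)
    (fun i => (pow_dvd_pow 2 (by omega)).trans (h i).one) fun i => by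
      obtain ⟨z, hz⟩ := (h i).two
      exact ⟨z ^ 2 ^ n₀, by rw [← pow_mul, ← pow_add, add_comm, hz]⟩

section io

variable {T : Type} [CommRing T] {φ : T →+* U.B M} {Y : Submodule (U.B M) (U.GG M)}

end io

section lev

variable [hC : ∀ l : U.L.C, Fact l.1.Prime] [CharP F 2] (X : Dt U M n)
  (u : Fin r ⊕ Fin r → U.B M)

variable {X u} [IsLocalRing O]

omit hC [CharP F 2] in
theorem Lv.uqF (hU : U.OkF) (V : Lv U r n M q b τ) {v : P022D.Fm.AM O M} (h : v ∈ U.WhP M) (j : Fin r) :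
    v ∈ Iv O (RD O) (Uq M (M / q j)) := by
  have A := V.auxF hU
  have : NeZero M := ⟨A.odd.pos.ne'⟩
  rw [Cyc.mem_Iv]
  rintro _ ⟨x, rfl⟩
  obtain ⟨k, hk⟩ := (A.sp j).2
  have h1 := (Submodule.mem_iInf _).1 h (U.NW * k * x.val)
  have e : U.NC * (U.NW * k * x.val) = U.N * (k * x.val) := by rw [Su.N]; ring
  rw [LinearMap.mem_ker, LinearMap.sub_apply, sub_eq_zero, e, pow_mul, Di.z_powF hU, one_pow,
    one_smul, ← mul_assoc, ← hk, Nat.cast_mul, ZMod.natCast_zmod_val] at h1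
  exact h1

omit hC [CharP F 2] in
theorem Lv.invF (hU : U.OkF) (V : Lv U r n M q b τ) {v : P022D.Fm.AM O M}
    (h : v ∈ Iv O (RD O) (U.TQ M n)) (j : Fin r) (c : (ZMod M)ˣ) (hc : Cg M (M / q j) c 1) :
    rt O _ (dg (c ^ 2 ^ n) 1) v = v ∧ rt O _ (dg 1 (c ^ 2 ^ n)) v = v := by
  have h1 := Cyc.Cg.of_dvd hc ((V.auxF hU).sp j).2
  exact ⟨Cyc.mem_Iv.1 h _ ⟨c, 1, h1, Cyc.cg_one, by rw [one_pow]⟩,
    Cyc.mem_Iv.1 h _ ⟨1, c, Cyc.cg_one, h1, by rw [one_pow]⟩⟩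

/-- the symbols act as diamond operators -/
theorem Lv.dmF (hU : U.OkF) (V : Lv U r n M q b τ) (hX : U.Op X.t X.d) (hu : IsDia b u)
    {Y : Submodule (U.B M) (U.GG M)} (hY : ∀ v ∈ Y, (v : P022D.Fm.AM O M) ∈ U.Zp M n) :
    Dm (O := O) n q b τ (em (X.ev u) Y) := by
  refine ⟨em_inj, fun j c hc w => V.invF hU (hY _ (show Y from w).2).2 j c hc, fun j w => ?_,
    fun j w => ?_⟩
  · rw [em_smul, X.ev_yy]
    exact (hu j).1 _
  · rw [em_smul, X.ev_tt]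
    exact hX.i1 _ _ ((V.auxF hU).sp j).1 _ (V.ine j) _ (V.cyc j) _
      (V.uqF hU (hY _ (show Y from w).2).1.2 j)

/-- **the fields `dia`, `diaC`** -/
theorem Lv.diaF (hU : U.OkF) (V : Lv U r n M q b τ) (hX : U.Op X.t X.d) (hu : IsDia b u)
    {Y : Submodule (U.B M) (U.GG M)} (hY : ∀ v ∈ Y, (v : P022D.Fm.AM O M) ∈ U.Zp M n) :
    Dia (O := O) n τ (P022D.Fm.Mt (X.ev u) Y) :=
  (V.dmF hU hX hu hY).dia (V.auxF hU) fun j w => by
    rw [em_smul, X.ev_dd]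
    exact hX.dI _ (V.pr j).1 (Di.ne_twoF hU (V.pr j).2) _ (V.ine j) _ (V.cyc j) _

end lev

section cyc

variable [hC : ∀ l : U.L.C, Fact l.1.Prime] [CharP F 2] {X : Dt U M n}
  {u : Fin r ⊕ Fin r → U.B M} [IsDomain O] [IsDiscreteValuationRing O]

/-- **the field `cyc`** -/
theorem Lv.cyc_ofF (h1 : CYC O) (h2 : RAT O) (h3 : HKV O) (hU : U.OkF) (V : Lv U r n M q b τ)
    (hX : U.Op X.t X.d) (hu : IsDia b u) {Y : Submodule (U.B M) (U.GG M)}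
    (hY : ∀ v ∈ Y, (v : P022D.Fm.AM O M) ∈ U.Zw M n) (hZ : ∀ v ∈ Y, (v : P022D.Fm.AM O M) ∈ XD1 O M (U.i + 1)) :
    ∃ χ : CharacterModule (P022D.Fm.Mt (X.ev u) Y), ∀ w : P022D.Fm.Mt (X.ev u) Y,
      (∀ p : Tg O, χ (p • w) = 0) → (∏ j, (ee n (O := O) τ j - 1)) • w = 0 := by
  have A := V.auxF hU
  have D := V.dmF hU hX hu fun v h => Su.zw_zp (hY v h)
  refine cyc_field h1 h2 A (Di.three_leF hU) V.two hU.z (em (X.ev u) Y) em_inj
    (fun w => ⟨hZ _ (show Y from w).2, (hY _ (show Y from w).2).1.2⟩) D.inv (fun o w => ?_)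
    (fun p a p1 p2 p3 => ?_) τ (dgr M) (dgl M) (Or.inr ⟨rfl, rfl⟩) D.hy fun j => ?_
  · rw [em_smul, X.ev_cc]
    rfl
  · obtain ⟨φ, hφ⟩ := H20.exists_isFrob p1
    have hp : ¬ p ∣ 2 * M := fun e => by
      rcases p1.dvd_mul.1 e with e | e
      · exact p2 ((Nat.prime_dvd_prime_iff_eq p1 Nat.prime_two).1 e)
      · exact p1.coprime_iff_not_dvd.1 ((ZMod.isUnit_iff_coprime p M).1 (p3 ▸ a.isUnit)) e
    have e : P022D.Fm.uP (⟨p, p1, hp⟩ : PA M) = a := Units.ext p3.symm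
    have k := fun w : P022D.Fm.Mt (X.ev u) Y => (h3 M U.i p a A.odd p1 p2 p3).2.1 _ (hZ _ (show Y from w).2)
    refine ⟨⟨tt φ, fun w => ?_⟩, dd φ, fun w => ?_⟩
    · rw [em_smul, X.ev_tt, hX.frT ⟨p, p1, hp⟩ φ hφ, e]
      exact (k w).2.2.1
    · rw [em_smul, X.ev_dd, hX.frS ⟨p, p1, hp⟩ φ hφ, e]
      exact (k w).2.2.2
  · rw [add_comm]
    exact D.ht j

/-- the same with any positive exponent -/
theorem Lv.cycCF (h1 : CYC O) (h2 : RAT O) (h3 : HKV O) (hU : U.OkF) (V : Lv U r n M q b τ)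
    (hX : U.Op X.t X.d) (hu : IsDia b u)
    (hZ : ∀ v ∈ X.Wh, (v : P022D.Fm.AM O M) ∈ XD1 O M (U.i + 1)) (j : ℕ) {c : ℕ} (hc : 1 ≤ c) :
    ∃ χ : CharacterModule (P022D.Fm.Mt (X.ev u) (X.Wc j)), ∀ w : P022D.Fm.Mt (X.ev u) (X.Wc j),
      (∀ p : Tg O, χ (p • w) = 0) → (∏ i, (ee n τ i - 1) : Tg O) ^ c • w = 0 := by
  obtain ⟨χ, h⟩ := V.cyc_ofF h1 h2 h3 hU hX hu (Y := X.Wc j) (fun v h => X.wc_zw h)
    fun v h => hZ v h.1
  refine ⟨χ, fun w hw => ?_⟩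
  rw [← Nat.sub_add_cancel hc, pow_succ, mul_smul, h w hw, smul_zero]

end cyc

section rows

theorem Lv.lm1F [IsLocalRing O] (hU : U.OkF) (V : Lv U r n M q b τ) : U.Lm M := by
  have A := V.auxF hU
  refine ⟨A.odd, Di.three_leF hU, ⟨_, V.eq⟩, ?_⟩
  rw [V.eq, Nat.mul_div_cancel_left _ (Di.odd_NF hU).pos]
  exact Nat.Coprime.prod_right fun j _ => ((A.pr j).1.coprime_iff_not_dvd.2 (A.pr j).2).symm

/-- **row LQ** -/
theorem lqCF [IsLocalRing O] (hU : U.OkF) : LQ U :=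
  ⟨fun _ _ _ _ _ _ V => V.lm1F hU, fun r n q inj h =>
    ⟨_, exLv_aqF hU (A := ∅) le_rfl inj (by rwa [Finset.empty_union])⟩⟩

variable [CharP F 2] [hC : ∀ l : U.L.C, Fact l.1.Prime]

/-- **row DIA** -/
theorem diaCF [IsLocalRing O] (hU : U.OkF) : DIA U := fun r n q P => by
  refine ⟨fun v hv => ?_, fun Y hY => P.lv.diaF hU P.ok.op P.dia fun v h => P022D.Fm.mem_of_sub (hY h)⟩
  have D := P.lv.dmF hU P.ok.op P.dia (Y := U.sb P.M (U.Zp P.M n)) fun v h => P022D.Fm.mem_of_sub h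
  have A := P.lv.auxF hU
  have h1 : ∀ s (w : U.sb P.M (U.Zp P.M n)), P.ev (dl n P.τ s) • w = P.u s • w := by
    rintro (j | j) w
    · exact congrArg (· • w) (P.X.ev_yy P.u j)
    · exact Subtype.ext (Subtype.ext ((D.ee A j w).trans ((P.dia j).2 w.1).symm))
  refine ⟨fun s => congrArg Subtype.val (h1 s ⟨v, hv⟩), ?_, fun s => ?_⟩
  · rw [map_nD]
    exact congrArg Subtype.val (nrm_congr n h1 ⟨v, hv⟩)
  · have h2 := D.grp A s ⟨v, hv⟩
    have h3 := pow_smul_congr (B := U.B P.M) (W := U.sb P.M (U.Zp P.M n)) (h1 s) (2 ^ n) ⟨v, hv⟩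
    rw [← map_pow] at h3
    exact congrArg Subtype.val (h3.symm.trans h2)

/-- **row CYF** -/
theorem cyfCF [IsDomain O] [IsDiscreteValuationRing O] (hU : U.OkF) (hL : CLS U) : CYF U :=
  fun r n q P => P.lv.cycCF (P022D.V.All.cyc O) (P022D.V.All.rat O) (P022D.V.All.hkv O) hU P.ok.op P.dia
    (fun v h => (hL r n q P v ⟨fun e he => Su.zw_zp (h.1 e he), h.2⟩).2.2.1) _ (by norm_num)

end rows

end Vale.Agent.P022E.Fm
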