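import Vale.Agent.P022E.Fm.Ac0
import Vale.Agent.P022F.Pt.Base
import Vale.Agent.P022F.Pt.FmBasic

/-!
# P022D, forms side: the action of the projective groups on the forms modulo `ϖ`
-/

set_option linter.all false

open scoped MatrixGroups

noncomputable section

namespace Vale.Agent.P022E.Fm.Ac

open Classical Vale.Agent.P022 Vale.Agent.P022D.V Vale.Agent.P022E.V Vale.Agent.P027M.M
open Vale.Agent.P022D.G (Wd wT wS)
open Vale.Agent.P022D.Rep (emb uG tG wG)

section grp

variable {M : ℕ}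

end grp

variable {O F : Type} [CommRing O] [Field F]

variable {U : Su O F} {M : ℕ}

variable [hC : ∀ l : U.L.C, Fact l.1.Prime]

variable [Co O]

section ops

variable (h : Lk U M)

end ops

variable [IsLocalRing O]

omit hC in
theorem ok_dvdF (hU : U.OkF) {c : O} (hc : U.S.red c = 0) : U.ϖ ∣ c :=
  hU.uni.dvd c ((hU.ok.ker c).1 hc)

omit hC in
theorem sc0_eqF (hU : U.OkF) (h : Lk U M) (n : ℕ) {c c' : O} (e : U.S.red c = U.S.red c') :
    sc0 U M n c = sc0 U M n c' := LinearMap.ext fun w => Subtype.ext (Subtype.ext (by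
  have h0 := Wb_kill h (ok_dvdF hU (c := c - c') (by rw [map_sub, e, sub_self])) w
  rw [sub_smul, sub_eq_zero] at h0
  exact h0))

omit hC in
/-- the scalars of the residue field -/
def scWF (hU : U.OkF) (h : Lk U M) (n : ℕ) : F →+* Module.End (U.B M) (U.Wb M n) where
  toFun c := sc0 U M n (Function.surjInv U.S.surj c)
  map_one' := (sc0_eqF hU h n (by rw [Function.surjInv_eq U.S.surj, map_one])).trans (map_one _)
  map_mul' a b := (sc0_eqF hU h n (by
    rw [map_mul, Function.surjInv_eq U.S.surj, Function.surjInv_eq U.S.surj,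
      Function.surjInv_eq U.S.surj])).trans (map_mul _ _ _)
  map_zero' := (sc0_eqF hU h n (by rw [Function.surjInv_eq U.S.surj, map_zero])).trans (map_zero _)
  map_add' a b := (sc0_eqF hU h n (by
    rw [map_add, Function.surjInv_eq U.S.surj, Function.surjInv_eq U.S.surj,
      Function.surjInv_eq U.S.surj])).trans (map_add _ _ _)

omit hC in
theorem scW_redF (hU : U.OkF) (h : Lk U M) (n : ℕ) (c : O) (w : U.Wb M n) :
    scWF hU h n (U.S.red c) w = algebraMap O (U.B M) c • w :=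
  LinearMap.congr_fun (sc0_eqF hU h n (Function.surjInv_eq U.S.surj _)) w

omit hC in
theorem Wb_cenF (hU : U.OkF) (h : Lk U M) {n : ℕ} {a : (ZMod M)ˣ} (ha : P022D.V.Cg M (M / U.NC) a 1)
    {v : P022D.Fm.AM O M} (h1 : v ∈ U.Zp M n) (h2 : U.ϖ • v = 0) : rt O _ (dg a a) v = v := by
  haveI := h.nz
  obtain ⟨d, hd⟩ := hU.omr _ ((ZMod.val_coe_unit_coprime a).coprime_dvd_right h.dvd)
  rw [(mem_Zp.1 h1).1 a ha, eq_add_of_sub_eq hd, add_smul, mul_comm, mul_smul, h2, smul_zero,
    zero_add, one_smul]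

/-- the commuting actions -/
def preWF (hU : U.OkF) (h : Lk U M) (n : ℕ) :
    P022D.Rep.Pre F (fun l : U.L.C => ZMod l.1) (U.B M) (U.Wb M n) where
  sc := scWF hU h n
  ρ := rW h n
  c1 c l g := by
    obtain ⟨c, rfl⟩ := U.S.surj c
    refine LinearMap.ext fun w => ?_
    rw [Module.End.mul_apply, Module.End.mul_apply, scW_redF, scW_redF, map_smul]
  c2 l l' e g g' := LinearMap.ext fun w => Subtype.ext (Subtype.ext (by
    show rt O _ (emb (h.sp l) g) (rt O _ (emb (h.sp l') g') _) =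
      rt O _ (emb (h.sp l') g') (rt O _ (emb (h.sp l) g) _)
    rw [P022D.V.rt_rt, P022D.V.rt_rt,
      P022D.Rep.emb_comm2 (h.sp l) (h.sp l') (fun e' => e (Subtype.ext e'))]))
  z l z := LinearMap.ext fun w => Subtype.ext (Subtype.ext (by
    rw [rW_coe, P022D.Rep.emb_t]
    exact Wb_cenF hU h (cg_dvd (h.dl l) (P022D.Rep.lamU_cg _ z)) (h.wb.1 w.2).1
      (h.wb.1 w.2).2))

variable [CharP F 2]

/-- **ACT** -/
theorem ex_actF (hU : U.OkF) (h : Lk U M)
    (n : ℕ) : ∃ E : P022D.Rep.Act F U.Gam (U.B M) (U.Wb M n),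
    (∀ (c : O) (w : U.Wb M n), E.sc (U.S.red c) w = algebraMap O (U.B M) c • w) ∧
    ∀ k ∈ Kq M (M / U.NC), ∀ γ : ∀ l, U.Gam l,
      (∀ (l : U.L.C) (hl : l.1 ∣ M), γ l = QuotientGroup.mk (pr hl k)) →
      ∀ w : U.Wb M n, (((E.ρ γ w : U.Wb M n) : U.GG M) : P022D.Fm.AM O M) = P022D.Fm.rD O k (w : U.GG M) := by
  refine ⟨(preWF hU h n).act, scW_redF hU h n, fun k hk γ hγ w => ?_⟩
  have key : ∀ g : ∀ l : U.L.C, GL (Fin 2) (ZMod l.1), ∀ w : U.Wb M n,
      ((((preWF hU h n).act.ρ (fun l => QuotientGroup.mk (g l)) w : U.Wb M n) : U.GG M) :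
        P022D.Fm.AM O M) = rt O _ (h.emP g) (w : U.GG M) := by
    intro g
    refine pi_ind (fun g => ∀ w : U.Wb M n,
      ((((preWF hU h n).act.ρ (fun l => QuotientGroup.mk (g l)) w : U.Wb M n) : U.GG M) :
        P022D.Fm.AM O M) = rt O _ (h.emP g) (w : U.GG M)) ?_ ?_ ?_ g
    · intro w
      have e : (fun l => QuotientGroup.mk ((1 : ∀ l : U.L.C, GL (Fin 2) (ZMod l.1)) l) :
        ∀ l, U.Gam l) = 1 := rfl
      rw [e, map_one, map_one, P022D.V.rt_one]
      rfl
    · intro x y hx hy w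
      have e : (fun l => QuotientGroup.mk ((x * y) l) : ∀ l, U.Gam l) =
        (fun l => QuotientGroup.mk (x l)) * fun l => QuotientGroup.mk (y l) := rfl
      rw [e, map_mul, map_mul, Module.End.mul_apply, hx, hy, P022D.V.rt_rt]
    · intro l g w
      have e : (fun l' => QuotientGroup.mk ((Pi.mulSingle l g : ∀ l : U.L.C,
          GL (Fin 2) (ZMod l.1)) l') : ∀ l, U.Gam l) = Pi.mulSingle l (QuotientGroup.mk g) := by
        funext l'
        by_cases e : l' = l
        · subst e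
          rw [Pi.mulSingle_eq_same, Pi.mulSingle_eq_same]
        · rw [Pi.mulSingle_eq_of_ne e, Pi.mulSingle_eq_of_ne e]
          rfl
      rw [e, P022D.Rep.Pre.act_ρ, h.emP_single]
      rfl
  have e : γ = fun l => QuotientGroup.mk (pr ((h.lC l).trans h.dC) k) := funext fun l => hγ l _
  rw [e, key, h.emP_pr hk]
  rfl

omit hC [CharP F 2] in
theorem lk_ofF (hU : U.OkF) (h : U.Lm M) : Lk U M where
  odd := h.odd
  three := h.three
  dvd := h.dvd
  cop := by
    have e : M / U.NC = U.NW * (M / U.N) := by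
      refine Nat.div_eq_of_eq_mul_right (Nat.pos_of_ne_zero hU.NCne) ?_
      rw [← mul_assoc, mul_comm U.NC]
      exact h.eq
    rw [e]
    exact hU.cop.symm.mul_right (h.cop.coprime_dvd_left (Dvd.intro_left _ rfl))
  NC := hU.NC
  zN := hU.zN

theorem actHF (hU : U.OkF) : ACT U := fun M n h t d op => by
  obtain ⟨E, h1, h2⟩ := ex_actF hU (lk_ofF hU h) n
  exact ⟨E, op, h1, h2⟩

end Vale.Agent.P022E.Fm.Ac
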