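import Vale.Agent.P022E.Fm.Rows
import Vale.Agent.P022F.Pt.Base


/-!
# P022E, forms side: the rows
-/

set_option linter.all false

open scoped MatrixGroups

noncomputable section

namespace Vale.Agent.P022E.Fm

open Vale.Agent.P022 Vale.Agent.P022E.V Vale.Agent.P027M.M
open Vale.Agent.P022E.G (Wd wT wS Inert)
open Vale.Agent.P022E.W.Step (kl Cs Dv)
open Vale.Agent.P027M.S (mx)
open Vale.Agent.P022E.As (Tg cc tt dd yy dl nD ee Dq mT Gm Sb2 Big Dia Aq HD2 Lv2)

variable {O F : Type} [CommRing O] [IsLocalRing O] [Co O] [Field F] [CharP F 2] (U : Su O F)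

variable [hC : ∀ l : U.L.C, Fact l.1.Prime]

variable (Cc : ∀ l : U.L.C, Rep.Ch (ZMod l.1) F)

section lq

variable {U Cc} {r n : ℕ} {q : Fin r → ℕ} (P : Lq U r n q)

end lq

/-- **the forms side** -/
def FORMSF : Prop := ∀ (O F : Type) [CommRing O] [IsDomain O] [IsDiscreteValuationRing O]
  [Core.Coef O] [Co O] [Field F] [Finite F] [CharP F 2] (U : Su O F)
  [∀ l : U.L.C, Fact l.1.Prime], U.OkF → ∃ Cc, ASM U Cc

end Vale.Agent.P022E.Fm
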