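import Vale.Agent.P022E.Fm.Big
import Vale.Agent.P022F.Pt.Base

/-!
# P022D, forms side: the support of a non zero module of forms has dimension at least two
-/

set_option linter.all false

noncomputable section

namespace Vale.Agent.P022E.Fm.Bg

open Vale.Agent.P022 Vale.Agent.P022D.V Vale.Agent.P022E.V Vale.Agent.P022D.G Vale.Agent.P022E.G
open Vale.Agent.P022D.W.Step (kl Cs)
open Vale.Agent.P022D.Pur (Amb Cut Lb)

variable {O F : Type} [CommRing O] [Field F] [Co O]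

variable {M i : ℕ}

variable [IsLocalRing O] {U : Su O F}

theorem pr_NF (hU : U.OkF) {p : ℕ} (hp : p.Prime) (h : p ∣ U.N) : p ∈ U.L.W ∪ U.L.C := by
  rcases (Nat.Prime.dvd_mul hp).1 h with h | h
  · exact Finset.mem_union_left _ ((hU.NW p hp).1 h)
  · rw [hU.NC] at h
    obtain ⟨l, hl, h⟩ := (Prime.dvd_finset_prod_iff hp.prime _).1 h
    have := Finset.mem_union_right U.L.W hl
    rwa [(Nat.prime_dvd_prime_iff_eq hp (hU.ok.pr l this).1).1 h]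

theorem odd_NF (hU : U.OkF) : Odd U.N := Nat.odd_iff.2 (Nat.two_dvd_ne_zero.1 fun h =>
  (hU.ok.pr 2 (pr_NF hU Nat.prime_two h)).2 rfl)

theorem three_NF (hU : U.OkF) : 3 ≤ U.N := by
  obtain ⟨l, hl, h⟩ : ∃ l ∈ U.L.W ∪ U.L.C, l ∣ U.N := by
    rcases hU.W3 with ⟨l, hl⟩ | ⟨l, hl, -⟩
    · have := Finset.mem_union_left U.L.C hl
      exact ⟨l, this, ((hU.NW l (hU.ok.pr l this).1).2 hl).mul_right _⟩
    · exact ⟨l, Finset.mem_union_right _ hl,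
        Dvd.dvd.mul_left (hU.NC ▸ Finset.dvd_prod_of_mem _ hl) _⟩
  have h1 := (hU.ok.pr l hl).1.two_le
  have h2 := (hU.ok.pr l hl).2
  have h3 := Nat.le_of_dvd (odd_NF hU).pos h
  omega

theorem sp_NF (hU : U.OkF) {l : ℕ} (hl : l ∈ U.L.C) :
    Sp U.N (U.NW * ∏ p ∈ U.L.C.erase l, p) l := by
  have hp := (hU.ok.pr l (Finset.mem_union_right _ hl)).1
  refine ⟨by rw [Su.N, hU.NC, mul_assoc, Finset.prod_erase_mul _ _ hl], ?_, hp, odd_NF hU⟩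
  refine Nat.Coprime.mul_left ((Nat.Prime.coprime_iff_not_dvd hp).2 fun h => ?_).symm
    (Nat.Coprime.prod_left fun p h => (Nat.coprime_primes (hU.ok.pr p (Finset.mem_union_right _
      (Finset.mem_of_mem_erase h))).1 hp).2 (Finset.ne_of_mem_erase h))
  exact Finset.disjoint_left.1 hU.ok.dj ((hU.NW l hp).1 h) hl

variable [hC : ∀ l : U.L.C, Fact l.1.Prime] [CharP F 2] {n : ℕ} {X : Dt U U.N n}

theorem liftF (hU : U.OkF) (hX : X.Ok) (l : U.L.C) (r : MonoidAlgebra F (U.Gam l)) :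
    ∃ a ∈ RA O U.N, ∀ w : U.Wb U.N n,
      (((X.E.al l r w : U.Wb U.N n) : U.GG U.N) : P022D.Fm.AM O U.N) = a (w : U.GG U.N) := by
  refine P022D.Rep.el_ind (p := fun r => ∃ a ∈ RA O U.N, ∀ w : U.Wb U.N n,
    (((X.E.al l r w : U.Wb U.N n) : U.GG U.N) : P022D.Fm.AM O U.N) = a (w : U.GG U.N)) r ?_ ?_ ?_
  · intro g
    obtain ⟨g, rfl⟩ := QuotientGroup.mk_surjective g
    have hs := sp_NF hU l.2
    have h0 : U.NC ≠ 0 := fun e => (odd_NF hU).pos.ne' (by rw [Su.N, e, mul_zero])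
    refine ⟨_, rD_RA (P022D.Rep.emb hs g), fun w => ?_⟩
    rw [X.E.al_el]
    refine hX.act _ (P022D.Rep.Kq_mono ?_ (P022D.Rep.emb_mem hs g)) _ (fun p hp => ?_) w
    · rw [Su.N, Nat.mul_div_cancel _ (Nat.pos_of_ne_zero h0)]
      exact dvd_mul_right _ _
    · by_cases e : p = l
      · subst e
        rw [Pi.mulSingle_eq_same, P022D.Rep.pr_emb]
      · rw [Pi.mulSingle_eq_of_ne e, pr_one hp (P022D.Rep.Kq_mono (Dvd.dvd.mul_left
          (Finset.dvd_prod_of_mem _ (Finset.mem_erase.2 ⟨fun h => e (Subtype.ext h), p.2⟩)) _)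
          (P022D.Rep.emb_mem hs g))]
        rfl
  · rintro x y ⟨a, h1, h2⟩ ⟨b, h3, h4⟩
    exact ⟨a + b, add_mem h1 h3, fun w => by
      rw [map_add, LinearMap.add_apply, Submodule.coe_add, Submodule.coe_add, h2, h4,
        LinearMap.add_apply]⟩
  · rintro c x ⟨a, h1, h2⟩
    obtain ⟨c, rfl⟩ := U.S.surj c
    exact ⟨c • a, Subalgebra.smul_mem _ h1 c, fun w => by
      rw [X.E.al_smul, Module.End.mul_apply, hX.sc, LinearMap.smul_apply, ← h2]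
      rfl⟩

theorem lbF (hV : HKV O) (hD : DIV O) (hU : U.OkF) (K : Submodule O (P022D.Fm.AM O U.N)) (p : U.B U.N)
    (s : Finset (U.GG U.N)) : ∃ C ∈ P022D.Pur.HA O (RD O) U.N U.i,
      (∀ v ∈ NN U.i U.ϖ K, C v ∈ NN U.i U.ϖ K) ∧
      ∀ y ∈ s, ((p • y : U.GG U.N) : P022D.Fm.AM O U.N) = C y := by
  obtain ⟨C, h1, h2⟩ := p.loc s
  have h3 := cm_CH hV hD (odd_NF hU) (three_NF hU) h1
  exact ⟨C, h3.1, NN_CH h3, h2⟩

theorem cut1F [NeZero U.N] (hK : HK O) (hV : HKV O) (hD : DIV O) (hU : U.OkF) (hX : X.Ok)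
    (I : P022D.Rep.Tu F U.Gam) : Cut U.i (NN U.i U.ϖ (LinearMap.range (inc (X.Y1 I))))
      (LinearMap.range (inc (X.Y1 I))) := by
  have hM := odd_NF hU
  let a : Gen U.N → Module.End O (P022D.Fm.AM O U.N) := fun j =>
    P022D.Fm.bw O U.N U.i (FreeAlgebra.ι ℤ j) - algebraMap O _ (U.sys U.N j)
  have ha : ∀ j, a j ∈ CT O U.N U.i := fun j =>
    sub_mem (bw_CH hV hM _) (Subalgebra.algebraMap_mem _ _)
  have hp : ∀ v, v ∈ P022D.Fm.Pm (P022D.Fm.bw O U.N U.i) (U.sys U.N) ∅ ↔ ∀ j, ∃ k : ℕ, (a j ^ k) v = 0 := by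
    intro v
    simp only [P022D.Fm.Pm, Submodule.mem_iInf, Submodule.mem_inf, P022D.Fm.mem_Nl, Sum.forall]
    exact ⟨fun h => ⟨fun ℓ => (h ℓ (by simp)).1, fun ℓ => (h ℓ (by simp)).2⟩,
      fun h ℓ _ => ⟨h.1 ℓ, h.2 ℓ⟩⟩
  refine (amb_NN hD hM (three_NF hU) hU.uni _).cut hK hM hU.uni a (fun j => (ha j).1)
    (fun j => NN_CH (ha j)) (fun j k v _ => ?_) fun v => ⟨?_, ?_⟩
  · have : Commute (P022D.Fm.bw O U.N U.i (FreeAlgebra.ι ℤ j)) (P022D.Fm.bw O U.N U.i (FreeAlgebra.ι ℤ k)) := by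
      rcases j with j | j <;> rcases k with k | k
      · exact (bw_T (O := O) j) ▸ (bw_T (O := O) k) ▸
          T2_comm _ j.2.1 k.2.1 (uP_coe j) (uP_coe k)
      · exact (bw_T (O := O) j) ▸ (bw_S (O := O) k) ▸ T2_S2_comm _ _ _ _ _ _
      · exact (bw_S (O := O) j) ▸ (bw_T (O := O) k) ▸ (T2_S2_comm _ _ _ _ _ _).symm
      · exact (bw_S (O := O) j) ▸ (bw_S (O := O) k) ▸ S2_comm _ _ _ _ _ _
    exact LinearMap.congr_fun ((this.sub_right (Algebra.commute_algebraMap_right _ _)).sub_left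
      (Algebra.commute_algebraMap_left _ _)).eq v
  · rintro ⟨⟨_, w, hw, rfl⟩, rfl⟩
    exact ⟨⟨⟨w.1.2.1, (P022D.Fm.mem_of_sub w.2).2⟩, fun b _ k => k _ ⟨⟨_, w, hw, rfl⟩, rfl⟩⟩,
      (hp _).1 w.1.2.2⟩
  · rintro ⟨h1, h2⟩
    have hz : ∀ x ∈ NN U.i U.ϖ (LinearMap.range (inc (X.Y1 I))),
        x ∈ U.Zp U.N n ⊓ P022D.Fm.Tor (P022D.Fm.AM O U.N) U.ϖ := fun x hx => by
      have k : ∀ b ∈ RA O U.N, (∀ y ∈ U.Zp U.N n, b y = 0) → b x = 0 := fun b hb k =>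
        hx.2 b hb (by
          rintro _ ⟨⟨_, w, hw, rfl⟩, rfl⟩
          exact k _ (P022D.Fm.mem_of_sub w.2).1)
      refine ⟨⟨⟨fun g hg => sub_eq_zero.1 (k (P022D.Fm.rD O g - algebraMap O _ _)
        (sub_mem (rD_RA g) (Subalgebra.algebraMap_mem _ _))
        fun y hy => sub_eq_zero.2 (hy.1.1 g hg)), (Submodule.mem_iInf _).2 fun j => k _
        (sub_mem (Subalgebra.smul_mem _ (rD_RA _) _) (one_mem _))
        fun y hy => (Submodule.mem_iInf _).1 hy.1.2 j⟩,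
        fun g hg => sub_eq_zero.1 (k (P022D.Fm.rD O g - algebraMap O _ 1)
        (sub_mem (rD_RA g) (Subalgebra.algebraMap_mem _ _))
        fun y hy => sub_eq_zero.2 (hy.2 g hg))⟩, hx.1.2⟩
    let w : U.Wb U.N n := ⟨⟨v, h1.1.1, (hp v).2 h2⟩, fun C hC =>
      hz _ (NN_CH (cm_CH hV hD hM (three_NF hU) hC) v h1)⟩
    refine ⟨⟨w.1, w, fun l r hr => ?_, rfl⟩, rfl⟩
    obtain ⟨b, hb, e⟩ := liftF hU hX l r
    refine Subtype.ext (Subtype.ext ((e w).trans (h1.2 b hb ?_)))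
    rintro _ ⟨⟨_, y, hy, rfl⟩, rfl⟩
    exact (e y).symm.trans (congrArg (fun x : U.Wb U.N n => (x.1 : P022D.Fm.AM O U.N)) (hy l r hr))

end Vale.Agent.P022E.Fm.Bg

namespace Vale.Agent.P022E.Fm.Bg

open Vale.Agent.P022 Vale.Agent.P022D.V Vale.Agent.P022E.V
open Vale.Agent.P022D.W.Step (kl Cs)
open Vale.Agent.P022D.Pur (Amb Cut Lb)

end Vale.Agent.P022E.Fm.Bg

namespace Vale.Agent.P022E.Fm

open Vale.Agent.P022 Vale.Agent.P022D.V Vale.Agent.P022E.V Vale.Agent.P022D.Fm.Bg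
  Vale.Agent.P022E.Fm.Bg
open Vale.Agent.P022D.W.Step (kl Cs)

variable {O F : Type} [CommRing O] [Field F] [Co O] [IsLocalRing O] {U : Su O F}
  [hC : ∀ l : U.L.C, Fact l.1.Prime] [CharP F 2]

/-- **the support of a non zero module of forms is big** -/
theorem bigF {n : ℕ} {X : Dt U U.N n} (hK : HK O) (hV : HKV O) (hD : DIV O) (hU : U.OkF)
    (hX : X.Ok) (I : P022D.Rep.Tu F U.Gam) {τ : U.B U.N} (hc : Cs (X.Y1 I) X.JW τ)
    (ha : ∀ c ∈ X.JW, ∀ v ∈ X.Y1 I, (c * τ) • v = 0) (h0 : X.Y I ≠ ⊥) {r : ℕ}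
    (u : Fin r ⊕ Fin r → U.B U.N) {b : ℕ} (hs : P022D.As.Sb2 (P022D.As.mT U.L.r) b (P022D.Fm.Mt (X.ev u) (X.Y I))) :
    P022D.As.Big (P022D.As.mT U.L.r) (P022D.Fm.Mt (X.ev u) (X.Y I)) := by
  have hM := P022E.Fm.Bg.odd_NF hU
  have : NeZero U.N := ⟨hM.pos.ne'⟩
  exact P022E.Fm.Bg.big_abs hK hM hU.uni (P022E.Fm.Bg.amb_NN hD hM (P022E.Fm.Bg.three_NF hU) hU.uni _) (P022E.Fm.Bg.cut1F hK hV hD hU hX I)
    (B := U.B U.N) (G := U.GG U.N) (ι := (U.GG U.N).subtype) (U.GG U.N).injective_subtype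
    (P022E.Fm.Bg.lbF hV hD hU _) (Y := X.Y1 I) (fun v => ⟨fun ⟨y, e⟩ => ⟨y.1, y.2, e⟩,
      fun ⟨y, hy, e⟩ => ⟨⟨y, hy⟩, e⟩⟩) hc ha h0 (X.ev u)
    (fun c => MvPolynomial.eval₂Hom_C _ _ c) hs

variable {Cc : ∀ l : U.L.C, P022D.Rep.Ch (ZMod l.1) F}

/-- **row BIGR** -/
theorem bigrF (hK : HK O) (hV : HKV O) (hD : DIV O) (hU : U.OkF) (hN : NZ0 U) (hT : CUT U)
    (hZ : HZ U) (hS : SBR U Cc) (h0 : NONV U Cc) : BIGR U Cc := by
  intro P J hJ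
  obtain ⟨ν, h1, h2⟩ := cs_Y1 hN hT hZ P
  obtain ⟨b, hb⟩ := hS 0
  have h3 := hb 0 _ P (P022D.Rep.XJ U.bn Cc J)
  have h4 := h0 P J hJ
  obtain ⟨M, b', τ, X, u, lv, ok, dia⟩ := P
  have e : M = U.N := by rw [lv.eq, Fin.prod_univ_zero, mul_one]
  subst e
  exact bigF hK hV hD hU ok _ (h2 _) (by
    rintro c hc _ ⟨w, -, rfl⟩
    exact h1 c hc w.1 w.2) h4 u h3

end Vale.Agent.P022E.Fm
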