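import Vale.Agent.P022E.Fm.Det
import Vale.Agent.P022F.Pt.Base

/-!
# P022D, forms side: the cyclotomic characters of the local elements
-/

set_option linter.all false

noncomputable section

namespace Vale.Agent.P022E.Fm

open NumberField IsLocalRing
open Vale.Agent.P022 Vale.Agent.P022.H443 Vale.Agent.P022.H853 Vale.Agent.P022D.W
  Vale.Agent.P022E.W
open Vale.Agent.P022E.Loc (Pl Tm)

variable {m : ℕ} [NeZero m]

variable {O F : Type} [CommRing O] [IsLocalRing O] [Field F] {S : P022D.R.Dat O F} {L : Pl O}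

/-- **the elements with fixed determinant act trivially on the diamond groups** -/
theorem dd_pwF (hL : L.OkF S) (ho : ∀ l ∈ L.W, ProOdd (L.g0 l)) {q n : ℕ} [NeZero q] (hq : q.Prime)
    (hT : q ∉ S.T) (h1 : 2 ^ (n + 1) ∣ q - 1) (h2 : ∃ z : ZMod q, z ^ 2 ^ n = 2) {g : GQ}
    (hg : g ∈ L.DD) : Pw n (cyc q g) := by
  haveI := Fact.mk hq
  rw [hL.hT, Finset.mem_insert, Finset.mem_insert, not_or, not_or] at hT
  have hq2 : ¬ 2 ∣ q := fun h => hT.2.1 ((Nat.prime_dvd_prime_iff_eq Nat.prime_two hq).1 h).symm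
  rcases hg with hg | rfl | ⟨l, hl, rfl⟩ | ⟨l, hl, rfl⟩
  · rw [hL.h2] at hg
    obtain ⟨k, hk⟩ := cyc_dec (m := q) Nat.prime_two hq2 (P022D.Loc2.PP_prime 2) (P022D.Loc2.p_mem_PP 2) hg
    obtain ⟨z, hz⟩ := h2
    have h0 : z ≠ 0 := by
      rintro rfl
      rw [zero_pow (by positivity)] at hz
      exact hq2 ((Nat.prime_dvd_prime_iff_eq hq Nat.prime_two).1
        ((ZMod.natCast_eq_zero_iff 2 q).1 (by exact_mod_cast hz.symm)) ▸ dvd_rfl)
    refine ⟨Units.mk0 z h0 ^ k, Units.ext ?_⟩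
    rw [hk, Units.val_pow_eq_pow_val, Units.val_pow_eq_pow_val, Units.val_mk0, ← pow_mul, mul_comm,
      pow_mul, hz, Nat.cast_ofNat]
  · have : cyc q L.c = -1 := Units.ext (by rw [cyc_conj hL.cj]; simp)
    rw [this]
    exact neg_one_pw hq h1
  · have hne : ¬ l ∣ q := fun h =>
      hT.2.2 ((Nat.prime_dvd_prime_iff_eq (hL.pr l hl).1 hq).1 h ▸ hl)
    rw [cyc_inert (hL.pr l hl).1 hne (hL.hP l hl).1 (hL.hP l hl).2 (hL.tm l hl).tau]
    exact ⟨1, one_pow _⟩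
  · obtain ⟨k, hk, e⟩ := cyc_proOdd (m := q) (ho l hl)
    obtain ⟨e', he⟩ := pow_of_odd hk e n
    exact ⟨_, he⟩

end Vale.Agent.P022E.Fm
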