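import Vale.Agent.P022E.W.Cut
import Vale.Agent.P022F.Pt.Base

/-!
# P022E, block W: the cut by types and central characters for modules over the ring of symbols
-/

set_option linter.all false

noncomputable section

namespace Vale.Agent.P022E.Loc

open NumberField IsLocalRing Finset Classical
open Vale.Agent.P022 Vale.Agent.P022.H443 Vale.Agent.P022D Vale.Agent.P022D.R Vale.Agent.P022D.W
open Vale.Agent.P022D.W.Step Vale.Agent.P022E.As
open Vale.Agent.P027M.S (mx)
open Vale.Agent.P022D.Sel (M2 IsDec)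
open Vale.Agent.P022E.Sel (Dh)

variable {O F : Type} [CommRing O] [Field F]

variable {S : R.Dat O F} {L : Pl O}

theorem exists_cwF [IsLocalRing O] (hL : L.OkF S) {e v : ℕ → Fin 2 → O} {u : ℕ → O}
    (h : ∀ l ∈ L.W, Wc S L l (e l) (u l) (v l)) : Nonempty (Cw S L) := by
  choose x hx using fun l => exists_dinv L.r (L.τ l)
  have h1 : ∀ l ∈ L.W ∪ L.C, ∃ a m, Odd m ∧ l = 2 ^ a * m + 1 := fun l hl => by
    have := (hL.pr l hl).1.two_le
    obtain ⟨a, m, hm, e⟩ := Nat.exists_eq_two_pow_mul_odd (n := l - 1) (by omega)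
    exact ⟨a, m, hm, by omega⟩
  have h2 : ∀ l : ℕ, ∃ b w, Odd w ∧ l + 1 = 2 ^ b * w := fun l =>
    Nat.exists_eq_two_pow_mul_odd (Nat.succ_ne_zero l)
  choose! a ha using h1
  choose b hb using h2
  exact ⟨⟨e, v, u, x, a, b, h, hx, ha, fun l _ => hb l⟩⟩

namespace Cw

variable (c : Cw S L)

variable [IsLocalRing O] [CharP F 2] (hL : L.OkF S) {X : Type*} [AddCommGroup X]
  [Module (Tg O) X] {l : ℕ} {v : X}
include hL

theorem one_le_aF (hl : l ∈ L.W ∪ L.C) : 1 ≤ c.a l := by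
  obtain ⟨m, hm, e⟩ := c.ha l hl
  have ho := (hL.pr l hl).1.odd_of_ne_two (hL.pr l hl).2
  by_contra h
  rw [show c.a l = 0 by omega, pow_zero, one_mul] at e
  rw [e] at ho
  exact (Nat.not_even_iff_odd.2 ho) hm.add_one

omit hL

variable {c} {Y : Submodule (Tg O) X} {Δ : ℕ → Type*} [∀ l, CommGroup (Δ l)]
  {pj : ∀ l, Δ l → X →+ X} {χ : ∀ l, GQ →* Δ l}

include hL

end Cw

end Vale.Agent.P022E.Loc
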