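import Vale.Agent.P022E.W.CutB
import Vale.Agent.P022F.Pt.Base
import Vale.Agent.P022F.Pt.WCut

/-!
# P022E, block W: the cut by the types over an arbitrary ring of operators
-/

set_option linter.all false

noncomputable section

namespace Vale.Agent.P022E.Loc

open NumberField IsLocalRing Finset Classical
open Vale.Agent.P022 Vale.Agent.P022.H443 Vale.Agent.P022D Vale.Agent.P022D.R Vale.Agent.P022D.W
open Vale.Agent.P022D.W.Step Vale.Agent.P022E.As
open Vale.Agent.P022D.Sel (M2)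

variable {O F : Type} [CommRing O] [Field F] {S : R.Dat O F} {L : Pl O}

variable {B : Type} [CommRing B] (s : Sy O B) {X : Type*} [AddCommGroup X] [Module B X]

variable {s}

namespace Cb

variable (c : Cw S L) (s)

variable {s} [IsLocalRing O] [CharP F 2] (hL : L.OkF S) {l : ℕ} {v : X}
include hL

theorem relF (hl : l ∈ L.W) (h : s.Gv L.r v) :
    WRel L l (c.a l) (c.b l) (c.x l) (cW (c.e l) (c.u l) (c.v l)) (zW L l (c.e l) (c.u l))
      s.ι s.t s.d (fun p q => p • v = q • v) (y s c l 0) (y s c l 1) (dl s c l) := by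
  obtain ⟨m, hm, e⟩ := c.ha l (mem_union_left _ hl)
  obtain ⟨w, hw, e'⟩ := c.hb l (mem_union_left _ hl)
  have k := WRel.map s.ev s.ev_C s.ev_t s.ev_d (E := fun p q => p • v = q • v)
    ((hL.wl l hl _ _ _ (c.wc l hl) _ _ _ _ hm hw e e' _ (c.hx l) _ h.gp0).imp fun p q k => by
      rwa [mem_cm, map_sub, sub_smul, sub_eq_zero] at k)
  rwa [yT, yT, yW_map s.ev s.ev_C s.ev_t, yW_map s.ev s.ev_C s.ev_t, map_mul, s.ev_d, s.ev_c] at k

theorem dl_powF (hl : l ∈ L.W) (h : s.Gv L.r v) : dl s c l ^ 2 ^ c.a l • v = v :=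
  (relF c hL hl h).dl_pow.trans (one_smul _ _)

theorem annF (hl : l ∈ L.W) (h : s.Gv L.r v) : ∀ p ∈ J s c l, (p * nm s c l) • v = 0 := by
  intro p hp
  by_cases h1 : L.Sp l
  · obtain ⟨a1, a2, -⟩ := (relF c hL h1.1 h).split h1.2.1 h1.2.2
    rw [one_smul] at a1 a2
    rw [J, if_pos h1] at hp
    rw [nm, if_pos h1]
    rcases hp with rfl | rfl
    · rw [← mul_assoc, mul_comm, mul_smul, geo a1, smul_zero]
    · rw [mul_left_comm, mul_smul, geo a2, smul_zero]
  by_cases h2 : L.In l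
  · obtain ⟨a1, -⟩ := (relF c hL h2.1 h).inert h2.2.1 h2.2.2
    rw [one_smul] at a1
    rw [J, if_neg h1, if_pos h2] at hp
    rw [nm, if_neg h1, if_pos h2, hp, geo a1]
  · rw [J, if_neg h1, if_neg h2] at hp
    rw [nm, if_neg h1, if_neg h2, hp, geo (dl_powF c hL hl h)]

/-- a vector killed by the equations of the cut is in the class -/
theorem to_JWF (h : s.Gv L.r v) (h0 : ∀ p ∈ ⋃ l ∈ L.W, J s c l, p • v = 0) :
    ∀ p ∈ s.JW L, p • v = 0 := by
  have k : ∀ l ∈ L.W, ∀ p, p - 1 ∈ J s c l → p • v = v := fun l hl p hp => by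
    have := h0 _ (Set.mem_iUnion₂.2 ⟨l, hl, hp⟩)
    rwa [sub_smul, one_smul, sub_eq_zero] at this
  have pw : ∀ {p : B}, p • v = v → ∀ n : ℕ, p ^ n • v = v := fun hp n => by
    induction n with
    | zero => simp
    | succ n ih => rw [pow_succ, mul_smul, hp, ih]
  have s' : ∀ l, L.Sp l → y s c l 0 • v = v ∧ y s c l 1 • v = v := fun l h1 =>
    ⟨k l h1.1 _ (by rw [J, if_pos h1]; exact Or.inl rfl),
      k l h1.1 _ (by rw [J, if_pos h1]; exact Or.inr rfl)⟩
  have i : ∀ l, L.In l → y s c l 0 • v = v := fun l h2 =>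
    k l h2.1 _ (by rw [J, if_neg (fun h1 : L.Sp l => h2.2.2 h1.2.2), if_pos h2]; rfl)
  have f1 : ∀ l ∈ L.W, L.τ l ∈ L.Hl l → ∀ j, y s c l j • v = v := fun l hl hτ j => by
    by_cases hφ : L.φ l ∈ L.Hl l
    · fin_cases j
      exacts [(s' l ⟨hl, hτ, hφ⟩).1, (s' l ⟨hl, hτ, hφ⟩).2]
    · fin_cases j
      exacts [i l ⟨hl, hτ, hφ⟩,
        ((relF c hL hl h).inert hτ hφ).2.1.trans (pw (i l ⟨hl, hτ, hφ⟩) l)]
  have f2 : ∀ l ∈ L.W, dl s c l • v = v := fun l hl => by
    by_cases h1 : L.Sp l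
    · rw [((relF c hL h1.1 h).split h1.2.1 h1.2.2).2.2, mul_smul, (s' l h1).2, (s' l h1).1]
    by_cases h2 : L.In l
    · exact ((relF c hL h2.1 h).inert h2.2.1 h2.2.2).2.2.trans (pw (i l h2) _)
    · exact k l hl _ (by rw [J, if_neg h1, if_neg h2]; rfl)
  rintro _ (⟨g, ⟨l, hl, hg⟩, rfl⟩ | ⟨l, hl, rfl⟩) <;> rw [sub_smul, sub_eq_zero]
  · have key : s.t (L.τ l) • v = s.ι (L.r (L.τ l)).trace • v ∧
        s.t (L.τ l * L.g0 l) • v = s.ι (L.r (L.τ l * L.g0 l)).trace • v := by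
      by_cases hτ : L.τ l ∈ L.Hl l
      · exact (c.wc l hl).cut hτ s.ι s.t (f1 l hl hτ)
      · exact (relF c hL hl h).ram hτ
    rcases hg with rfl | rfl | rfl
    exacts [key.1, key.2, (relF c hL hl h).tg]
  · conv_rhs => rw [← f2 l hl, ← mul_smul, dl, mul_left_comm, ← map_mul, mul_comm _ (c.x l),
      c.hx, map_one, mul_one]

/-- **the equations of the class kill the norm element** -/
theorem annJWF {Z : Submodule B X} (hZ : ∀ v ∈ Z, s.Gv L.r v) :
    ∀ p ∈ s.JW L, ∀ v ∈ Z, (p * NN s c) • v = 0 := fun p hp v hv => by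
  rw [mul_smul]
  exact to_JWF c hL (hZ _ (Z.smul_mem _ hv)) (fun q hq => by
    rw [← mul_smul]
    exact ann_prod (fun l hl p hp v hv => annF c hL hl (hZ v hv) p hp) q hq v hv) p hp

omit hL

variable {c} {Y : Submodule B X} {Δ : ℕ → Type*} [∀ l, CommGroup (Δ l)]
  {pj : ∀ l, Δ l → X →+ X} {χ : ∀ l, GQ →* Δ l}

include hL

theorem Gr.datF (h : Gr s c Y pj χ) (hY : ∀ v ∈ Y, s.Gv L.r v) {K : Submodule B X} (hK : K ≤ Y)
    (hs : ∀ l, L.Sp l → ∀ v ∈ K, pj l 1 v ∈ K) :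
    Step.Dat K L.W (w s c) (fun l => 2 ^ c.a l) (J s c) (nm s c)
      fun l v => if L.Sp l then pj l 1 v else v := by
  refine ⟨fun _ _ => Nat.one_le_two_pow, fun l hl v hv => ?_,
    fun l hl p hp v hv => annF c hL hl (hY v (hK hv)) p hp, fun l hl v hv => ?_,
    fun l hl l' hl' e p hp v hv h0 => ?_, fun l hl K' hK' hs' H => ?_⟩
  · rw [w, eq_of_two (h.two v (hK hv)) (sub_one_pow _ _), sub_smul,
      dl_powF c hL hl (hY v (hK hv)), one_smul, sub_self]
  · split_ifs with h1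
    exacts [hs l h1 v hv, hv]
  · split_ifs with h1
    swap
    · exact h0
    have o := h.oth l h1 l' hl' e
    have d : Deg Y (pj l) (dl s c l' - 1) 1 := by
      refine Deg.sub ?_ Deg.one
      simpa [o, dl] using (h.dD l h1 (L.τ l')).mul (h.dC l h1 (c.x l'))
    have y' : l' ∈ L.W → ∀ i, Deg Y (pj l) (y s c l' i - 1) 1 := fun k i =>
      Deg.sub (o ▸ h.dy h1 k i) Deg.one
    refine Deg.ker ?_ 1 (hK hv) h0
    rcases hp with rfl | hp
    · exact d
    rw [J] at hp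
    split_ifs at hp with h2 h3
    · rcases hp with rfl | rfl
      exacts [y' h2.1 0, y' h2.1 1]
    · exact hp ▸ y' h3.1 0
    · exact hp ▸ d
  · have a := c.one_le_aF hL (mem_union_left _ hl)
    have k : K' ≤ Y := hK'.trans hK
    by_cases h1 : L.Sp l
    · rw [J, nm, if_pos h1, if_pos h1]
      refine rep_gr h.two (k := 1) a (h.ord l h1) (h.idm l h1) (h.ort l h1) (h.sum l h1)
        (h.dy h1 h1.1 0) (h.dy h1 h1.1 1) (fun v hv => ?_) (fun v hv => ?_)
        (fun v hv b1 b2 => ?_) (fun _ _ => rfl) K' k (fun v hv => by simpa [h1] using hs' v hv) H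
      · exact ((relF c hL h1.1 (hY v hv)).split h1.2.1 h1.2.2).2.1.trans (one_smul _ _)
      · rw [w, sub_smul, sub_smul, pow_one, ((relF c hL h1.1 (hY v hv)).split h1.2.1 h1.2.2).2.2]
      · rw [sub_smul, one_smul, sub_eq_zero] at b1 b2
        exact ⟨b1, b2⟩
    by_cases h2 : L.In l
    · rw [J, nm, if_neg h1, if_neg h1, if_pos h2, if_pos h2]
      obtain ⟨m, -, e⟩ := c.hb l (mem_union_left _ hl)
      refine rep_inert (fun v hv => h.two v (k hv)) (k := m) a (fun v hv => ?_) (fun _ _ => rfl)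
        (fun _ _ => rfl) H
      rw [w, sub_smul, sub_smul, ← e, ((relF c hL h2.1 (hY v (k hv))).inert h2.2.1 h2.2.2).2.2]
    · rw [J, nm, if_neg h1, if_neg h1, if_neg h2, if_neg h2]
      exact rep_inert (fun v hv => h.two v (k hv)) (θ := dl s c l) (b := 0) (k := 1) a
        (fun v hv => by simp [w]) (fun _ _ => rfl) (fun _ _ => rfl) H

/-- **the cut**: freeness over the group of scalars gives freeness over the types -/
theorem Gr.csF (h : Gr s c Y pj χ) (hY : ∀ v ∈ Y, s.Gv L.r v) {K : Submodule B X} (hK : K ≤ Y)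
    (hs : ∀ l, L.Sp l → ∀ v ∈ K, pj l 1 v ∈ K)
    (H : Cs K (w s c '' (L.W : Set ℕ)) (∏ l ∈ L.W, w s c l ^ (2 ^ c.a l - 1))) :
    Cs K (s.JW L) (NN s c) :=
  (multi _ K (h.datF hL hY hK hs) H).congr (fun _ _ h0 => of_JW c h0) fun _ _ => rfl

end Cb

end Vale.Agent.P022E.Loc
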