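import Vale.Agent.P022E.Fm.Cut
import Vale.Agent.P022F.Pt.Base
import Vale.Agent.P022F.Pt.WCut
import Vale.Agent.P022F.Pt.WCutB

/-!
# P022D, forms side: the projectors on the components and the grading of the carrier
-/

set_option linter.all false

noncomputable section

namespace Vale.Agent.P022E.Fm

open Classical Finset
open Vale.Agent.P022 Vale.Agent.P022.H853 Vale.Agent.P022D.V Vale.Agent.P022E.V Vale.Agent.P027M.M
open Vale.Agent.P022D.G (Wd wT wS Inert)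
open Vale.Agent.P022D.W.Step (kl Cs Deg law_deg mem_kl1)
open Vale.Agent.P022E.Loc (Cw Sy)

section abs

variable {O A Δ : Type} [CommRing O] [AddCommGroup A] [Module O A] [CommGroup Δ]

end abs

variable {O F : Type} [CommRing O] [Field F] [Co O]

section gen

variable {M : ℕ} {Δ : Type} [CommGroup Δ] (ν : (ZMod M)ˣ →* Δ)

variable (U : Su O F)

variable {ν U}

end gen

section op

variable {U : Su O F} {M : ℕ} {t : GQ → U.B M} {d : GQ →* (U.B M)ˣ}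

end op

/-! ### the two-primary part of the units modulo `l` -/

section nu

variable {U : Su O F} (c : Cw U.S U.L)

variable [IsLocalRing O] (hU : U.OkF)
include hU

theorem Su.OkF.l_dvd {l : ℕ} (hl : l ∈ U.L.W) : l ∣ U.N :=
  ((hU.NW l (hU.ok.pr l (mem_union_left _ hl)).1).2 hl).mul_right _

/-- the class of `τ l` generates the two-primary part -/
theorem tau_genF {l : ℕ} (hl : l ∈ U.L.W) [NeZero l] (x : (ZMod l)ˣ) :
    ∃ j : ℕ, x ^ mo c l = (cyc l (U.L.τ l) ^ mo c l) ^ j := by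
  have hl' := mem_union_left U.L.C hl
  have hp := (hU.ok.pr l hl').1
  obtain ⟨j, p, ⟨e, he, hpe⟩, rfl⟩ := cyc_tau (m := l) (k := 1) (m' := 1) hp (by simp) (by simp)
    (hU.ok.hP l hl').1 (hU.ok.hP l hl').2 (hU.ok.tm l hl') x (Nat.modEq_one)
  have h1 : (p ^ mo c l) ^ e = 1 := by rw [← pow_mul, mul_comm, pow_mul, hpe, one_pow]
  have := Nat.dvd_gcd (orderOf_dvd_of_pow_eq_one h1) (orderOf_dvd_of_pow_eq_one (pw_l c hp hl p))
  rw [((Nat.coprime_two_right.2 he).pow_right _).gcd_eq_one, Nat.dvd_one, orderOf_eq_one_iff]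
    at this
  exact ⟨j, by rw [mul_pow, this, mul_one, ← pow_mul, ← pow_mul, mul_comm]⟩

theorem tau_ordF {l : ℕ} (hl : l ∈ U.L.W) [NeZero l] :
    orderOf (cyc l (U.L.τ l) ^ mo c l) = 2 ^ c.a l := by
  have hp := (hU.ok.pr l (mem_union_left U.L.C hl)).1
  haveI := Fact.mk hp
  obtain ⟨g, hg⟩ := IsCyclic.exists_ofOrder_eq_natCard (α := (ZMod l)ˣ)
  rw [Nat.card_eq_fintype_card, ZMod.card_units] at hg
  obtain ⟨hm, e⟩ := mo_spec c hl
  obtain ⟨j, hj⟩ := tau_genF c hU hl g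
  refine Nat.dvd_antisymm (orderOf_dvd_of_pow_eq_one (pw_l c hp hl _)) ?_
  have h1 : orderOf (g ^ mo c l) = 2 ^ c.a l := by
    rw [orderOf_pow_of_dvd hm.pos.ne' (by rw [hg]; exact ⟨2 ^ c.a l, by rw [mul_comm]; omega⟩), hg,
      show l - 1 = 2 ^ c.a l * mo c l by omega, Nat.mul_div_cancel _ hm.pos]
  rw [← h1, hj]
  exact orderOf_pow_dvd j

variable {M : ℕ} [NeZero M] (hN : U.N ∣ M) (ht : ∀ v ∈ U.GG M, ∃ s : ℕ, (2 : O) ^ s • v = 0)
include hN ht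

theorem nu_GGF {l : ℕ} (hl : l ∈ U.L.W) (δ : (ZMod l)ˣ) :
    ∀ v ∈ U.GG M, pj O (RD O) (nu c M l) δ v ∈ U.GG M := by
  have hd := hU.l_dvd hl
  refine pj_GG hU.z hN (fun a ha => ?_) (a := c.a l) (fun x => ?_) ht δ
  · rw [nu_apply c (hd.trans hN), ← ZMod.unitsMap_comp hd hN, MonoidHom.comp_apply, ha, map_one,
      one_pow]
  · rw [nu_apply c (hd.trans hN)]
    exact pw_l c (hU.ok.pr l (mem_union_left _ hl)).1 hl _

/-- **the grading** of the forms modulo `ϖ` -/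
theorem grF [CharP F 2] {t : GQ → U.B M} {d : GQ →* (U.B M)ˣ} (h : U.Op t d) :
    Loc.Cb.Gr (syB t d) c (kl ⊤ {algebraMap O (U.B M) U.ϖ}) (fun l => pjG (nu c M l) U)
      fun l => ((nu c M l).comp (cyc M))⁻¹ := by
  have G := fun l (h1 : U.L.Sp l) => nu_GGF c hU hN ht h1.1
  have ev : ∀ l (h1 : U.L.Sp l) [NeZero l] g, nu c M l (cyc M g) = cyc l g ^ mo c l :=
    fun l h1 _ g => by rw [nu_apply c ((hU.l_dvd h1.1).trans hN), cyc_map]
  have pr := fun l (h1 : U.L.Sp l) => (hU.ok.pr l (mem_union_left _ h1.1)).1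
  have ord : ∀ l, U.L.Sp l → orderOf (nu c M l (cyc M (U.L.τ l)))⁻¹ = 2 ^ c.a l := fun l h1 => by
    haveI : NeZero l := ⟨(pr l h1).ne_zero⟩
    rw [orderOf_inv, ev l h1, tau_ordF c hU h1.1]
  refine ⟨fun v hv => ?_, fun l h1 => Loc.open_of (f := cyc M) (fun g hg => ?_) cyc_open, ord,
    fun l h1 g => ⟨c.a l, ?_⟩, fun l h1 l' hl' e => ?_,
    fun l h1 g δ v _ => (h.deg0 (G l h1) g δ v).1,
    fun l h1 g δ v _ => by rw [← mul_assoc]; exact (h.deg0 (G l h1) g δ v).2,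
    fun l h1 o δ v _ => Subtype.ext ?_, fun l h1 v _ => Subtype.ext ?_,
    fun l h1 δ hδ v _ => Subtype.ext ?_, fun l h1 v _ => Subtype.ext ?_⟩
  · obtain ⟨z, hz⟩ := hU.uni.dvd 2 (fun e => by
      have := e.map U.S.red
      rw [map_ofNat, CharTwo.two_eq_zero] at this
      exact not_isUnit_zero this)
    have e : U.ϖ • v = 0 := (mem_kl1.1 hv).2
    rw [← map_ofNat (algebraMap O (U.B M)) 2, P022D.Fm.BT.alg_smul, hz, mul_comm, mul_smul, e, smul_zero]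
  · show (nu c M l (cyc M g))⁻¹ = 1
    rw [hg, map_one, inv_one]
  · show (nu c M l (cyc M g))⁻¹ ^ _ = 1
    rw [inv_pow, nu_apply c ((hU.l_dvd h1.1).trans hN), pw_l c (pr l h1) h1.1, inv_one]
  · haveI : NeZero l := ⟨(pr l h1).ne_zero⟩
    have k := mem_union_left U.L.C hl'
    show (nu c M l (cyc M (U.L.τ l')))⁻¹ = 1
    rw [ev l h1, cyc_inert (hU.ok.pr l' k).1 (fun e' =>
      e ((Nat.prime_dvd_prime_iff_eq (hU.ok.pr l' k).1 (pr l h1)).1 e').symm) (hU.ok.hP l' k).1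
      (hU.ok.hP l' k).2 (hU.ok.tm l' k).tau, one_pow, inv_one]
  · show (pjG _ U (δ * 1) (o • v) : P022D.Fm.AM O M) = o • (pjG _ U δ v : P022D.Fm.AM O M)
    rw [mul_one, pjG_coe (G l h1 _), pjG_coe (G l h1 _), Submodule.coe_smul, map_smul]
  · rw [pjG_coe (G l h1 _), pjG_coe (G l h1 _), pj_id]
  · rw [pjG_coe (G l h1 _), pjG_coe (G l h1 _), pj_or _ hδ]; rfl
  · haveI : NeZero l := ⟨(pr l h1).ne_zero⟩
    rw [Submodule.coe_sum]
    simp only [pjG_coe (G l h1 _)]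
    refine pj_sum _ (by positivity) (ord l h1) (fun x => ?_) _
    obtain ⟨j, hj⟩ := tau_genF c hU h1.1 (ZMod.unitsMap ((hU.l_dvd h1.1).trans hN) x)⁻¹
    exact ⟨j, by rw [nu_apply c ((hU.l_dvd h1.1).trans hN), ev l h1, inv_pow, ← hj, inv_pow, inv_inv]⟩

theorem nu_oneF {l : ℕ} (hl : l ∈ U.L.W) {x : (ZMod M)ˣ} (hx : P022D.V.Cg M U.NW x 1) :
    nu c M l x = 1 := by
  have hd := (hU.l_dvd hl).trans hN
  obtain ⟨k, hk⟩ := (hU.NW l (hU.ok.pr l (mem_union_left _ hl)).1).2 hl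
  obtain ⟨y, hy⟩ := hx
  have : ZMod.unitsMap hd x = 1 := Units.ext (by
    have e := congrArg (ZMod.castHom hd (ZMod l)) hy
    rw [map_add, map_mul, map_natCast, map_one, hk, Nat.cast_mul, ZMod.natCast_self, zero_mul,
      zero_mul, add_zero] at e
    exact e)
  rw [nu_apply c hd, this, one_pow]

theorem pj_EgF {l : ℕ} (hl : l ∈ U.L.W) (δ : (ZMod l)ˣ) {H : Set (GM M)} {χ : GM M → O}
    (h : ∀ g ∈ H, P022D.V.Cg M U.NW (g : Matrix (Fin 2) (Fin 2) (ZMod M)).det 1) {v : P022D.Fm.AM O M}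
    (hv : v ∈ Eg O (RD O) H χ) : pj O (RD O) (nu c M l) δ v ∈ Eg O (RD O) H χ :=
  Eg_tw (fun g hg x => by
    rw [ind, ind, map_mul (nu c M l),
      nu_oneF c hU hN ht hl (x := Matrix.GeneralLinearGroup.det g) (h g hg), mul_one]) hv

theorem pj_ZpF {l : ℕ} (hl : l ∈ U.L.W) (δ : (ZMod l)ˣ) (hC : U.NC ≠ 0) {n : ℕ} {v : P022D.Fm.AM O M}
    (hv : v ∈ U.Zp M n) : pj O (RD O) (nu c M l) δ v ∈ U.Zp M n := by
  have dd : ∀ a d : (ZMod M)ˣ, P022D.V.Cg M U.NW a 1 → P022D.V.Cg M U.NW d 1 →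
      P022D.V.Cg M U.NW (dg a d : Matrix (Fin 2) (Fin 2) (ZMod M)).det 1 := by
    rintro a d ⟨x, hx⟩ ⟨y, hy⟩
    refine ⟨x + y + U.NW * x * y, ?_⟩
    rw [dg_coe, Matrix.det_fin_two_of, hx, hy]
    ring
  have pw : ∀ (a : (ZMod M)ˣ) (k : ℕ), P022D.V.Cg M U.NW a 1 → P022D.V.Cg M U.NW (a ^ k : (ZMod M)ˣ) 1 := by
    rintro a k ⟨x, hx⟩
    induction k with
    | zero => exact ⟨0, by simp⟩
    | succ k ih =>
      obtain ⟨y, hy⟩ := ih
      exact ⟨x + y + U.NW * x * y, by rw [pow_succ, Units.val_mul, hx, hy]; ring⟩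
  have d1 : U.NW ∣ M / U.NC := by
    obtain ⟨Q, rfl⟩ := hN
    rw [Su.N, mul_right_comm, Nat.mul_div_cancel _ (Nat.pos_of_ne_zero hC)]
    exact dvd_mul_right _ _
  refine ⟨⟨pj_EgF c hU hN ht hl δ ?_ hv.1.1, ?_⟩, pj_EgF c hU hN ht hl δ ?_ hv.2⟩
  · rintro _ ⟨a, ha, rfl⟩
    exact dd a a (cg_of_dvd d1 ha) (cg_of_dvd d1 ha)
  · have h : v ∈ U.WhP M := hv.1.2
    show _ ∈ U.WhP M
    simp only [Su.WhP, Submodule.mem_iInf, LinearMap.mem_ker, LinearMap.sub_apply,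
      LinearMap.smul_apply, sub_eq_zero, Module.End.one_apply] at h ⊢
    intro x
    conv_rhs => rw [← h x]
    rw [map_smul]
    exact congrArg _ (pj_rt' _ δ (by rw [det_un', map_one]) v).symm
  · rintro _ ⟨a, d, ha, hd, rfl⟩
    exact dd _ _ (pw a _ (cg_of_dvd (dvd_mul_right _ _) ha))
      (pw d _ (cg_of_dvd (dvd_mul_right _ _) hd))

end nu

section fin

variable [IsLocalRing O] [CharP F 2] {U : Su O F} (hU : U.OkF)
include hU

theorem Su.OkF.two_dvd0 : U.ϖ ∣ 2 := hU.uni.dvd 2 fun e => by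
  have := e.map U.S.red
  rw [map_ofNat, CharTwo.two_eq_zero] at this
  exact not_isUnit_zero this

theorem Su.OkF.x_dvd (c : Cw U.S U.L) (l : ℕ) : U.ϖ ∣ c.x l - 1 := hU.uni.dvd _ fun e => by
  have h1 := congrArg U.S.red (c.hx l)
  rw [map_mul, RingHom.map_det, RingHom.mapMatrix_apply, hU.ok.lift, hU.ok.det, mul_one,
    map_one] at h1
  have := e.map U.S.red
  rw [map_sub, h1, map_one, sub_self] at this
  exact not_isUnit_zero this

theorem Su.OkF.cw : Nonempty (Cw U.S U.L) := by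
  choose! e u v hw using hU.wc
  exact Loc.exists_cwF hU.ok hw

theorem Su.Hc.tor2F {M : ℕ} (hc : U.Hc M) : ∀ v ∈ U.GG M, ∃ s : ℕ, (2 : O) ^ s • v = 0 := by
  intro v hv
  obtain ⟨z, hz⟩ := hU.two_dvd0
  obtain ⟨k, hk⟩ := hc.tor ⟨v, hv⟩
  rw [← map_pow, P022D.Fm.BT.alg_smul] at hk
  exact ⟨k, by
    rw [hz, mul_pow, mul_comm, mul_smul, show U.ϖ ^ k • v = 0 from congrArg Subtype.val hk,
      smul_zero]⟩

theorem cut_KF {M n : ℕ} (lm : U.Lm M) (hc : U.Hc M) (c : Cw U.S U.L) {t : GQ → U.B M}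
    {d : GQ →* (U.B M)ˣ} (op : U.Op t d) {K : Submodule (U.B M) (U.GG M)} {H : Set (GM M)}
    {χ : GM M → O} (hH : ∀ g ∈ H, P022D.V.Cg M U.NW (g : Matrix (Fin 2) (Fin 2) (ZMod M)).det 1)
    (hK : ∀ v, v ∈ K ↔ v ∈ U.Wb M n ∧ (v : P022D.Fm.AM O M) ∈ Eg O (RD O) H χ)
    (h : Cs K {p | ∃ l ∈ U.L.W, p = (syB t d).d (U.L.τ l) - 1}
      (∏ l ∈ U.L.W, ∑ j ∈ range (2 ^ c.a l), (syB t d).d (U.L.τ l) ^ j)) :
    Cs K ((syB t d).JW U.L) (Loc.Cb.NN (syB t d) c) := by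
  haveI : NeZero M := ⟨lm.odd.pos.ne'⟩
  have ht := hc.tor2F hU
  have G := grF c hU lm.dvd ht op
  have wb := fun v hv => (hc.wb lm n v).1 ((hK v).1 hv).1
  have le : K ≤ kl ⊤ {algebraMap O (U.B M) U.ϖ} := fun v hv =>
    mem_kl1.2 ⟨trivial, Subtype.ext (wb v hv).2⟩
  refine G.csF hU.ok (fun v _ => op.gv0 v) le (fun l h1 v hv => ?_)
    (cs_of c (syB t d) (fun v hv => G.two v (le hv)) (fun l hl v hv => ?_) h)
  · have k := pjG_coe (nu_GGF c hU lm.dvd ht h1.1 1) v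
    have C0 : U.NC ≠ 0 := fun e => by
      have := lm.le
      rw [Su.N, e] at this
      omega
    rw [hK, hc.wb lm, k]
    exact ⟨⟨pj_ZpF c hU lm.dvd ht h1.1 1 C0 (wb v hv).1, by
      rw [← map_smul, (wb v hv).2, map_zero]⟩, pj_EgF c hU lm.dvd ht h1.1 1 hH ((hK v).1 hv).2⟩
  · obtain ⟨y, hy⟩ := hU.x_dvd c l
    have e0 : U.ϖ • v = 0 := Subtype.ext (wb v hv).2
    show c.x l • v = v
    rw [eq_add_of_sub_eq hy, add_smul, mul_comm, mul_smul, e0, smul_zero, zero_add, one_smul]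

/-- **row CUT** -/
theorem cutCF [∀ l : U.L.C, Fact l.1.Prime] (hH : HC U) (hL : LQ U) : CUT U := by
  intro r n q P
  obtain ⟨c⟩ := hU.cw
  have lm := hL.1 _ _ _ _ _ _ P.lv
  have hc := hH P.M lm.odd (lm.le.trans (Nat.le_of_dvd lm.odd.pos lm.dvd))
  refine ⟨Loc.Cb.NN (syB P.X.t P.X.d) c, c.a, fun l hl => c.ha l (mem_union_left _ hl),
    fun p hp v _ => Loc.Cb.annJWF (s := syB P.X.t P.X.d) c hU.ok (Z := ⊤)
      (fun v _ => P.ok.op.gv0 v) p hp v trivial, ?_⟩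
  rintro K ⟨H, χ, hH, hK⟩ h
  exact cut_KF hU lm hc c P.ok.op hH hK h

end fin

end Vale.Agent.P022E.Fm
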