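import Vale.Agent.P022E.Fm.FibR
import Vale.Agent.P022F.Pt.Base

/-!
# P022D, forms side: correspondences between two levels
-/

set_option linter.all false

noncomputable section

namespace Vale.Agent.P022E.Fm

open Vale.Agent.P022 Vale.Agent.P022D.V Vale.Agent.P022E.V
open Vale.Agent.P022D.W.Step (kl mem_kl mem_kl1)

variable {O F : Type} [CommRing O] [Field F] [Co O]

variable {U : Su O F}

namespace Cr

variable {M₁ M₂ : ℕ} {L₁ : P022D.Fm.Lc U.N M₁} {L₂ : P022D.Fm.Lc U.N M₂} {R : Submodule O (P022D.Fm.AM O M₁ × P022D.Fm.AM O M₂)}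
  (C : Cr U L₁ L₂ R) {v : P022D.Fm.AM O M₁} {w : P022D.Fm.AM O M₂}
include C

end Cr

namespace Cr

variable {M₁ M₂ : ℕ} {L₁ : P022D.Fm.Lc U.N M₁} {L₂ : P022D.Fm.Lc U.N M₂} {R : Submodule O (P022D.Fm.AM O M₁ × P022D.Fm.AM O M₂)}
  (C : Cr U L₁ L₂ R) {t₁ : GQ → U.B M₁} {d₁ : GQ →* (U.B M₁)ˣ} {t₂ : GQ → U.B M₂}
  {d₂ : GQ →* (U.B M₂)ˣ}
include C

end Cr

section lev

variable [IsLocalRing O] [hC : ∀ l : U.L.C, Fact l.1.Prime] [CharP F 2]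

omit hC [CharP F 2] in
theorem lcCF (hU : U.OkF) {l : ℕ} (hl : l ∈ U.L.C) :
    P022D.Fm.Lc l U.N ∧ U.NW ∣ U.N / l ∧ ∀ p ∈ U.L.C, p ≠ l → p ∣ U.N / l := by
  have hp : ∀ p ∈ U.L.C, p.Prime := fun p h => (hU.ok.pr p (Finset.mem_union_right _ h)).1
  have e : U.N = l * (U.NW * ∏ p ∈ U.L.C.erase l, p) := by
    rw [Su.N, hU.NC, ← Finset.mul_prod_erase _ _ hl]
    ring
  have e' : U.N / l = U.NW * ∏ p ∈ U.L.C.erase l, p := by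
    rw [e, Nat.mul_div_cancel_left _ (hp l hl).pos]
  refine ⟨⟨Dvd.intro _ e.symm, ?_, ?_⟩, Dvd.intro _ e'.symm, fun p h hne => ?_⟩
  · rw [Su.N, hU.NC]
    exact mul_ne_zero hU.NW0 (Finset.prod_ne_zero_iff.2 fun p h => (hp p h).ne_zero)
  · rw [e']
    refine Nat.Coprime.mul_right ((hp l hl).coprime_iff_not_dvd.2 fun h => ?_)
      (Nat.Coprime.prod_right fun p h => ?_)
    · exact Finset.disjoint_left.1 hU.ok.dj ((hU.NW l (hp l hl)).1 h) hl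
    · exact (Nat.coprime_primes (hp l hl) (hp p (Finset.mem_of_mem_erase h))).2
        (Finset.ne_of_mem_erase h).symm
  · rw [e']
    exact (Finset.dvd_prod_of_mem _ (Finset.mem_erase.2 ⟨hne, h⟩)).mul_left _

omit [CharP F 2] in
/-- the elements of one factor come from the base level -/
theorem ex_bas1F (hU : U.OkF) (l : U.L.C) (γ : U.Gam l) : ∃ g ∈ Kq U.N U.NW,
    ∀ (p : U.L.C) (hp : p.1 ∣ U.N), Pi.mulSingle (M := U.Gam) l γ p =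
      QuotientGroup.mk (pr hp g) := by
  obtain ⟨γ, rfl⟩ := QuotientGroup.mk_surjective γ
  obtain ⟨L, h1, h2⟩ := lcCF hU l.2
  obtain ⟨g, a, b⟩ := L.lift (one_dvd _) (g₀ := γ) fun i j =>
    ⟨γ.val i j - (1 : GrpP.Mt l.1) i j, by rw [Nat.cast_one, one_mul, add_sub_cancel]⟩
  rw [one_mul] at a
  refine ⟨g, P022D.Fm.kq_dvd h1 a, fun p hp => ?_⟩
  by_cases e : p = l
  · subst e
    rw [Pi.mulSingle_eq_same, b]
  · rw [Pi.mulSingle_eq_of_ne e,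
      (Wq.mem_Kq hp g).1 (P022D.Fm.kq_dvd (h2 p p.2 fun h => e (Subtype.ext h)) a)]
    rfl

theorem act_bas1F (hU : U.OkF) {M n : ℕ} (L : P022D.Fm.Lc U.N M) {X : Dt U M n} (hX : X.Ok) {γ : ∀ l, U.Gam l}
    {g : GM U.N} (a : g ∈ Kq U.N U.NW)
    (b : ∀ (p : U.L.C) (hp : p.1 ∣ U.N), γ p = QuotientGroup.mk (pr hp g)) :
    ∃ k ∈ Kq M (M / U.N), pr L.dvd k = g ∧ ∀ w : U.Wb M n,
      (((X.E.ρ γ w : U.Wb M n) : U.GG M) : P022D.Fm.AM O M) = rt O (RD O) k (w : U.GG M) := by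
  obtain ⟨k, c, rfl⟩ := L.lift NW_dvd a
  refine ⟨k, P022D.Fm.kq_dvd (Dvd.intro_left _ rfl) c, rfl, hX.act k (L.divCE ▸ c) γ fun p hp => ?_⟩
  rw [b p (lcCF hU p.2).1.dvd, P022D.Fm.pr_pr]

namespace Cr

variable {M₁ M₂ n₁ n₂ : ℕ} {L₁ : P022D.Fm.Lc U.N M₁} {L₂ : P022D.Fm.Lc U.N M₂}
  {R : Submodule O (P022D.Fm.AM O M₁ × P022D.Fm.AM O M₂)} (C : Cr U L₁ L₂ R) (hU : U.OkF) {X₁ : Dt U M₁ n₁}
  {X₂ : Dt U M₂ n₂} (h₁ : X₁.Ok) (h₂ : X₂.Ok)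
include C hU h₁ h₂

theorem alF (l : U.L.C) (r : MonoidAlgebra F (U.Gam l)) {v : U.Wb M₁ n₁} {w : U.Wb M₂ n₂}
    (h : Rg R (v : U.GG M₁) (w : U.GG M₂)) :
    Rg R (X₁.E.al l r v : U.GG M₁) (X₂.E.al l r w : U.GG M₂) := by
  refine P022D.Rep.el_ind (p := fun r => Rg R (X₁.E.al l r v : U.GG M₁) (X₂.E.al l r w : U.GG M₂))
    r ?_ ?_ ?_
  · intro γ
    obtain ⟨g, a, b⟩ := ex_bas1F hU l γ
    obtain ⟨k₁, a₁, b₁, c₁⟩ := act_bas1F hU L₁ h₁ a b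
    obtain ⟨k₂, a₂, b₂, c₂⟩ := act_bas1F hU L₂ h₂ a b
    unfold Rg
    rw [P022D.Rep.Act.al_el, P022D.Rep.Act.al_el, c₁, c₂]
    exact C.gp _ a₁ _ a₂ (b₁.trans b₂.symm) _ _ h
  · intro x y hx hy
    rw [map_add, map_add, LinearMap.add_apply, LinearMap.add_apply]
    exact R.add_mem hx hy
  · intro c x hx
    obtain ⟨c, rfl⟩ := U.S.surj c
    rw [P022D.Rep.Act.al_smul, P022D.Rep.Act.al_smul, Module.End.mul_apply, Module.End.mul_apply, h₁.sc, h₂.sc]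
    exact Cr.alg c hx

/-- **the types are respected** -/
theorem memYF (S : Sk U M₂ n₂) (I : P022D.Rep.Tu F U.Gam) {v : U.GG M₁} {w : U.GG M₂} (h : Rg R v w)
    (hv : v ∈ X₁.Y I) : w ∈ X₂.Y I := by
  obtain ⟨⟨v, a, rfl⟩, b⟩ := hv
  have c := P022D.Fm.mem_of_sub v.2
  have hw : w ∈ U.Wb M₂ n₂ := S.wb w ⟨C.zp hU.omp h c.1, C.sm h c.2⟩
  refine ⟨⟨⟨w, hw⟩, fun l r hr => Subtype.ext ?_, rfl⟩, C.jw h₁ h₂ h b⟩
  exact C.zero (C.alF hU h₁ h₂ l r (w := ⟨w, hw⟩) h) (congrArg Subtype.val (a l r hr))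

theorem memWhF (S : Sk U M₂ n₂) {v : U.GG M₁} {w : U.GG M₂} (h : Rg R v w) (hv : v ∈ X₁.Wh) :
    w ∈ X₂.Wh := ⟨S.zw w (C.zw hU.omp h (P022D.Fm.mem_of_sub hv.1)), C.jw h₁ h₂ h hv.2⟩

theorem memWcF (S : Sk U M₂ n₂) (j : ℕ) {v : U.GG M₁} {w : U.GG M₂} (h : Rg R v w)
    (hv : v ∈ X₁.Wc j) : w ∈ X₂.Wc j :=
  mem_kl1.2 ⟨C.memWhF hU h₁ h₂ S h hv.1, C.zero (Cr.alg _ h) (mem_kl1.1 hv).2⟩

end Cr

end lev

end Vale.Agent.P022E.Fm
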