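import Vale.Agent.P022E.Fm.Hc
import Vale.Agent.P022F.Pt.Base
import Vale.Agent.P022F.Pt.FmBasic

/-!
# P022D, forms side: row HC
-/

set_option linter.all false

noncomputable section

namespace Vale.Agent.P022E.Fm

open Vale.Agent.P022 Vale.Agent.P022D.V Vale.Agent.P022E.V

variable {O F : Type} [CommRing O] [IsLocalRing O] [Co O] [Field F] {U : Su O F} {M : ℕ}

theorem Lv.lmF {r n : ℕ} {q : Fin r → ℕ} {b : Fin r → (ZMod M)ˣ} {τ : Fin r → GQ} (h : U.OkF)
    (H : Lv U r n M q b τ) : U.Lm M :=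
  ⟨H.oddF h, h.three, H.dvd, by
    rw [H.eq, Nat.mul_div_cancel_left _ (Nat.pos_of_ne_zero h.Nne)]
    exact H.copF h⟩

theorem hcCF (h : U.OkF) : HC U := fun M hM h3 =>
  haveI : NeZero M := ⟨hM.pos.ne'⟩
  { cm := cm_HA
    st := stb_GG hM h3 _
    rt := GG_rD hM h3
    com := fun _ hg e _ _ hv => B_rD hg e hv
    ex := fun _ _ had => exists_isU hM h3 had
    tor := fun v => by
      obtain ⟨k, hk⟩ := GG_torp h.uni hM h3 v
      exact ⟨k, by rw [← map_pow]; exact hk⟩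
    kq := fun L _ hg => Kq_NC L.dvd hg
    zp := fun L n _ => mem_sb (stb_Zp L.dvd h.zN n)
    zw := fun L n _ => mem_sb (stb_Zw L.dvd h.zN n)
    wb := fun L _ _ => mem_Wb L.dvd h.zN
    wp := fun _ => Zw_le_Zp }

end Vale.Agent.P022E.Fm
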