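import Vale.Agent.P022E.Fm.NwA
import Vale.Agent.P022F.Pt.Base

/-!
# P022D, forms side: the Galois operators and the operators at a prime of the level
-/

set_option linter.all false

open scoped MatrixGroups

noncomputable section

namespace Vale.Agent.P022E.Fm.N6

open Vale.Agent.P022 Vale.Agent.P022D.V Vale.Agent.P022E.V Vale.Agent.P027M.M
open Vale.Agent.P022D.G (Wd wT wS Inert)
open Vale.Agent.P027M.S (mx)

section abs

variable {O A : Type} [CommRing O] [AddCommGroup A] [Module O A]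
  {H : Subalgebra O (Module.End O A)} {G : Submodule O A}

end abs

section gal

variable {O F : Type} [CommRing O] [Field F] [IsLocalRing O] {U : Su O F}

theorem red_trF (hL : U.L.OkF U.S) (g : GQ) : U.S.red (U.tr g) = (mx U.S.rb g).trace := by
  rw [← hL.lift g, Su.tr, Matrix.trace_fin_two, Matrix.trace_fin_two, map_add]
  rfl

theorem unit_of_redF (hL : U.L.OkF U.S) {c : O} (h : U.S.red c ≠ 0) : IsUnit c := by
  by_contra hn
  exact h ((hL.ker c).2 hn)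

variable [CharP F 2]

/-- a Frobenius element with unit trace -/
theorem ex_l0F (hL : U.L.OkF U.S) (S : Finset ℕ) :
    ∃ (p : ℕ) (φ : GQ), p.Prime ∧ p ∉ S ∧ IsFrob p φ ∧ IsUnit (U.tr φ) := by
  have h2 : (2 : F) = 0 := CharTwo.two_eq_zero
  obtain ⟨g, hne⟩ : ∃ g, mx U.S.rb g 0 0 ≠ mx U.S.rb g 1 1 := ⟨_, U.S.dne⟩
  obtain ⟨p, φ, k, h1, h3, h4, h5⟩ := P022D.G.frob U.S.rb.ker inferInstance hL.dh.opn g S
  refine ⟨p, φ, h1, h3, h4, unit_of_redF hL fun ht => hne ?_⟩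
  rw [red_trF hL] at ht
  have hd := hL.det φ
  have e : mx U.S.rb g = mx U.S.rb φ ^ k := by
    rw [MonoidHom.mem_ker, map_mul, map_inv, inv_mul_eq_one, map_pow] at h5
    show ((U.S.rb g : GL (Fin 2) F) : Matrix (Fin 2) (Fin 2) F) = _
    rw [h5, Units.val_pow_eq_pow_val]
  generalize mx U.S.rb φ = A at ht hd e
  have sq : A * A = 1 := by
    rw [Matrix.trace_fin_two] at ht
    rw [Matrix.det_fin_two] at hd
    ext i j
    fin_cases i <;> fin_cases j <;> simp [Matrix.mul_apply, Fin.sum_univ_two]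
    · linear_combination A 0 0 * ht - hd - h2
    · linear_combination A 0 1 * ht
    · linear_combination A 1 0 * ht
    · linear_combination A 1 1 * ht - hd - h2
  have tz : ∀ k : ℕ, (A ^ k).trace = 0 ∧ (A ^ (k + 1)).trace = 0 := by
    intro k
    induction k with
    | zero => exact ⟨by rw [pow_zero, Matrix.trace_fin_two]; simpa using one_add_one_eq_two.trans h2,
        by rw [zero_add, pow_one, ht]⟩
    | succ k ih => exact ⟨ih.2, by rw [pow_succ, pow_succ, mul_assoc, sq, mul_one, ih.1]⟩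
  have := (tz k).1
  rw [← e, Matrix.trace_fin_two] at this
  linear_combination this - mx U.S.rb g 1 1 * h2

/-- the traces see the non trivial elements -/
theorem ex_trF (hL : U.L.OkF U.S) {s : GQ}
    (hs : ¬ ∀ g, (mx U.S.rb (g * s)).trace = (mx U.S.rb g).trace) :
    ∃ g, IsUnit (U.tr (g * s) - U.tr g) := by
  have h2 : (2 : F) = 0 := CharTwo.two_eq_zero
  by_contra hn
  have k : ∀ g, (mx U.S.rb (g * s)).trace = (mx U.S.rb g).trace := fun g => by
    by_contra e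
    refine hn ⟨g, unit_of_redF hL ?_⟩
    rwa [map_sub, red_trF hL, red_trF hL, sub_ne_zero]
  exact hs k

end gal

variable {O F : Type} [CommRing O] [Field F] [Co O] {U : Su O F} {M : ℕ}

section op

variable {t : GQ → U.B M} {d : GQ →* (U.B M)ˣ} (h : U.Op t d)
include h

variable [IsLocalRing O] [CharP F 2] (hL : U.L.OkF U.S)
include hL

theorem op_gvF (hM : M ≠ 0) : P022D.Nw.Gv O (fun g => (t g).op) (fun g => (d g : U.B M).op) (RD O) M
    U.i (U.GG M).subtype.toAddMonoidHom := by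
  obtain ⟨p, φ, h1, h2, h3, h4⟩ := ex_l0F hL (2 * M).primeFactors
  exact ⟨op_law h, Subtype.val_injective, (2 * M).primeFactors,
    fun p u φ hp hS hu hφ v => op_fr h hp (P022D.Gt.not_mem_pf hM hp hS) hu hφ v,
    p, φ, h1, h2, P022D.Gt.not_mem_pf hM h1 h2, h3, op_inj h h4⟩

/-- **no invariant vectors at a residually ramified prime** -/
theorem op_noinvF {M₀ q : ℕ} (sp : Sp M M₀ q) {s : GQ} (hs : Inert q s)
    (hr : ¬ ∀ g, (mx U.S.rb (g * s)).trace = (mx U.S.rb g).trace)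
    {v : U.GG M} (hv : (v : P022D.Fm.AM O M) ∈ Iv O (RD O) (Kq M M₀)) : v = 0 := by
  obtain ⟨g, hg⟩ := ex_trF hL hr
  refine rad_unit (hg.map (algebraMap O (U.B M))) ?_
  have a : t (g * s) - t g ∈ Ideal.torsionOf (U.B M) _ v :=
    (Ideal.mem_torsionOf_iff _ _).2 (by rw [sub_smul, h.ur M₀ q sp s hs v hv g, sub_self])
  have b := add_mem (sub_mem (Ideal.le_radical a) (op_rad h (g * s) v)) (op_rad h g v)
  rw [map_sub]
  refine Eq.mp (congrArg _ ?_) b
  ring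

end op

section W

variable {M₀ q : ℕ} (sp : Sp M M₀ q) {s : GM M} (hs : IsS M M₀ s)
include sp

include hs

variable {t : GQ → U.B M} {d : GQ →* (U.B M)ˣ} (h : U.Op t d) [IsLocalRing O] [CharP F 2]
  (hL : U.L.OkF U.S)
include h hL

/-- **new vectors** -/
theorem op_newF (hN : P022D.Nw.NEWD O) {φ : GQ} (hφ : IsFrob q φ) {v : U.GG M}
    (hb : (v : P022D.Fm.AM O M) ∈ Iv O (RD O) (Bq M M₀)) (h1 : (1 + Ts O (RD O) M₀ q s) (v : P022D.Fm.AM O M) = 0)
    (h2 : (1 + Ts O (RD O) M₀ q s) (W2 O (RD O) M M₀ q (zD O M) U.i v) = 0) :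
    ((q : U.B M) * t φ ^ 2 - ((q : U.B M) + 1) ^ 2 * d φ) ^ 2 • v = 0 := by
  have a := hN M M₀ q U.i s sp (sp3 sp) hs O _ _ _ _ (op_gvF h hL sp.Mpos.ne') φ hφ v
    ⟨v.2.1, hb⟩ h1 h2
  have e : P022D.Nw.Dn (fun g => (t g).op) (fun g => (d g : U.B M).op) q φ =
      opH ((q : U.B M) * t φ ^ 2 - ((q : U.B M) + 1) ^ 2 * (d φ : U.B M)) := by
    rw [← Nat.cast_succ, ← Nat.cast_pow, ← nsmul_eq_mul, ← nsmul_eq_mul, map_sub, map_nsmul,
      map_nsmul, sq, map_mul]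
    rfl
  rw [e] at a
  rw [sq]
  exact a

/-- **the trace of `W` on old vectors** -/
theorem op_tlF (hG : P022D.Gt.GT O) (h3 : 3 ≤ M₀) {φ : GQ} (hφ : IsFrob q φ) {f : U.GG M}
    (hf : (f : P022D.Fm.AM O M) ∈ Iv O (RD O) (Kq M M₀)) :
    (1 + Ts O (RD O) M₀ q s) (W2 O (RD O) M M₀ q (zD O M) U.i f) =
      q • ((t φ • f : U.GG M) : P022D.Fm.AM O M) ∧
    W2 O (RD O) M M₀ q (zD O M) U.i (W2 O (RD O) M M₀ q (zD O M) U.i f) =
      q • (((d φ : U.B M) • f : U.GG M) : P022D.Fm.AM O M) := by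
  haveI : NeZero M₀ := ⟨by omega⟩
  have hM := sp.Mpos.ne'
  obtain ⟨p, ψ, h1, h2, hψ, h4⟩ := ex_l0F hL (2 * M).primeFactors
  have m := P022D.Gt.not_mem_pf hM h1 h2
  have dn : ∀ {p : ℕ}, ¬ p ∣ 2 * M → ¬ p ∣ 2 * M₀ := fun m e =>
    m (e.trans (mul_dvd_mul_left 2 sp.dvd))
  obtain ⟨t₀, d₀, ga⟩ := hG M₀ U.i p ⟨sp.odd.of_dvd_nat sp.dvd, h3, h1, dn m⟩
  obtain ⟨y, hy, e⟩ : (f : P022D.Fm.AM O M) ∈ (XD O M₀ U.i).map (ifl O _ sp.dvd) := by
    rw [((All.descv O M₀ M sp.dvd sp.odd h3).2 U.i).2]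
    exact ⟨f.2.1, hf⟩
  have it : ∀ k : ℕ, ifl O _ sp.dvd ((T2 O (RD O) U.i p (P022D.Gt.cl M₀ p) ^ k) y) =
      ((t ψ ^ k • f : U.GG M) : P022D.Fm.AM O M) := by
    intro k
    induction k with
    | zero => rw [pow_zero, pow_zero, one_smul]; exact e
    | succ k ih =>
      rw [pow_succ', pow_succ', Module.End.mul_apply, (P022D.Gt.ifl_cl sp.dvd h1 m _).1, ih, mul_sm,
        (op_fr h h1 m (P022D.Gt.nd2 h1 m).2 hψ _).1]
  have per : ∃ n, 0 < n ∧ t ψ ^ n • f = f := by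
    haveI := h.fin f
    obtain ⟨a, b, ne, ab⟩ := Finite.exists_ne_map_eq_of_infinite fun k : ℕ =>
      (⟨t ψ ^ k • f, Submodule.smul_mem _ _ (Submodule.mem_span_singleton_self f)⟩ :
        Submodule.span (U.B M) {f})
    have k : ∀ a n : ℕ, t ψ ^ (a + n) • f = t ψ ^ a • f → t ψ ^ n • f = f := by
      intro a n
      induction a with
      | zero => intro x; rwa [zero_add, pow_zero, one_smul] at x
      | succ a ih =>
        intro x
        rw [add_right_comm, pow_succ', pow_succ'] at x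
        exact ih (op_inj h h4 x)
    replace ab : t ψ ^ a • f = t ψ ^ b • f := congrArg Subtype.val ab
    rcases lt_or_gt_of_ne ne with l | l
    · obtain ⟨n, rfl⟩ := Nat.exists_eq_add_of_le l.le
      exact ⟨n, by omega, k a n ab.symm⟩
    · obtain ⟨n, rfl⟩ := Nat.exists_eq_add_of_le l.le
      exact ⟨n, by omega, k b n ab⟩
  obtain ⟨n, n0, hn⟩ := per
  have hy' : y ∈ P022D.Gt.Xo O M₀ U.i p :=
    ⟨hy, n, n0, ifl_inj (S := O) sp.dvd sp.odd (by rw [it, hn, e])⟩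
  let A : AddSubgroup (U.GG M × P022D.Gt.Xo O M₀ U.i p) :=
    { carrier := {x | (x.1 : P022D.Fm.AM O M) = ifl O _ sp.dvd x.2}
      zero_mem' := (map_zero _).symm
      add_mem' := fun {a b} x y => by
        show ((a.1 + b.1 : U.GG M) : P022D.Fm.AM O M) = ifl O _ sp.dvd (a.2 + b.2 : P022D.Gt.Xo O M₀ U.i p)
        rw [Submodule.coe_add, Submodule.coe_add, map_add, x, y]
      neg_mem' := fun {a} x => by
        show ((-a.1 : U.GG M) : P022D.Fm.AM O M) = ifl O _ sp.dvd (-a.2 : P022D.Gt.Xo O M₀ U.i p)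
        rw [Submodule.coe_neg, Submodule.coe_neg, map_neg, x] }
  have r := P022D.Nw.law_rel (op_law h) ga.law A (2 * M).primeFactors (fun l χ hl hS hχ v w a => by
    have ml := P022D.Gt.not_mem_pf hM hl hS
    have a' : (v : P022D.Fm.AM O M) = ifl O _ sp.dvd w := a
    constructor
    · exact (op_fr h hl ml (P022D.Gt.nd2 hl ml).2 hχ v).1.trans (by
        rw [a', ← (P022D.Gt.ifl_cl sp.dvd hl ml _).1, ← (ga.fr hl (dn ml) hχ w).1])
    · exact (op_fr h hl ml (P022D.Gt.nd2 hl ml).2 hχ v).2.trans (by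
        rw [a', ← (P022D.Gt.ifl_cl sp.dvd hl ml _).2, ← (ga.fr hl (dn ml) hχ w).2])) φ
    (v := f) (w := ⟨y, hy'⟩) e.symm
  have q2 : q ≠ 2 := fun x => by
    have := sp.qodd
    rw [x] at this
    exact absurd this (by decide)
  have hu := P022D.Gt.cl_coe sp.cop.symm
  have r1 : ((t φ • f : U.GG M) : P022D.Fm.AM O M) = ifl O _ sp.dvd (t₀ φ ⟨y, hy'⟩) := r.1
  have r2 : (((d φ : U.B M) • f : U.GG M) : P022D.Fm.AM O M) = ifl O _ sp.dvd (d₀ φ ⟨y, hy'⟩) := r.2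
  obtain ⟨c, hc⟩ := (grp M M₀ q sp).2.1
  constructor
  · rw [r1, ga.frT q _ φ sp.prime q2 hu hφ, ← e]
    exact P022D.Nw.Tr_W2 sp (pzD sp) hs hu U.i (e ▸ XD_tc sp U.i f.2.1)
  · rw [P022D.Nw.W2_W2 sp (pzD sp) hs hc U.i (P022D.Nw.K_B hf) (XD_tc sp U.i f.2.1), r2,
      ga.frS q _ φ sp.prime q2 hu hφ, ← e]
    refine congrArg _ (gen_S2 _ (fun w => ?_) (ifl_neg sp.dvd) U.i q y).symm
    rw [P022D.Nw.ifl_dg, Units.ext ((P022D.Nw.um_c sp hc).trans hu.symm)]

end W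

end Vale.Agent.P022E.Fm.N6
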