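import Vale.Agent.P022E.Fm.Fib
import Vale.Agent.P022F.Pt.Base
import Vale.Agent.P022F.Pt.FmBasic
import Vale.Agent.P022F.Pt.FmFibR
import Vale.Agent.P022F.Pt.FmHc
import Vale.Agent.P022F.Pt.FmNwA

/-!
# P022D, forms side: rows FIB and DSC
-/

set_option linter.all false

noncomputable section

namespace Vale.Agent.P022E.Fm

open Vale.Agent.P022 Vale.Agent.P022D.V Vale.Agent.P022E.V
open Vale.Agent.P022D.W.Step (kl mem_kl mem_kl1)
open Vale.Agent.P022D.As (Tg cc tt dd yy dl Dq)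

variable {O F : Type} [CommRing O] [IsLocalRing O] [Co O] [Field F] {U : Su O F} {M : ℕ}

namespace Fb

theorem skF (hU : U.OkF) (L : U.Lm M) (n : ℕ) : Sk U M n :=
  haveI : NeZero M := ⟨L.odd.pos.ne'⟩
  ⟨fun _ h => (mem_Wb L.dvd hU.zN).2 h, fun _ h => (mem_sb (stb_Zw L.dvd hU.zN n)).2 h⟩

variable [hC : ∀ l : U.L.C, Fact l.1.Prime] [CharP F 2]

section ev

variable {n r : ℕ} (X : Dt U M n) (u : Fin r ⊕ Fin r → U.B M)

end ev

theorem famYF (hU : U.OkF) (I : P022D.Rep.Tu F U.Gam) : Fam (U := U) fun X => X.Y I :=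
  fun _ L _ C _ _ a b _ _ h hv => C.memYF hU a b (skF hU L _) I h hv

theorem famWF (hU : U.OkF) (j : ℕ) : Fam (U := U) fun X => X.Wc j :=
  fun _ L _ C _ _ a b _ _ h hv => C.memWcF hU a b (skF hU L _) j h hv

/-- **old forms fill the Iwahori level** -/
theorem coreF (hU : U.OkF) (hI : Ifl U) (hCh : CHAIN) (hN : P022D.Nw.NEWD O) (hG : P022D.Gt.GT O)
    {Y : ∀ {M n : ℕ}, Dt U M n → Submodule (U.B M) (U.GG M)} (hY : Fam Y) (P0 : L0 U) {r n : ℕ}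
    {q : Fin r → ℕ} (P : Lq U r n q) (φ : Fin r → GQ) (hφ : ∀ i, IsFrob (q i) (φ i)) :
    ∃ β : (Finset (Fin r) → P022D.Fm.Mt P0.ev (Y P0.X)) →ₗ[Tg O] P022D.Fm.Mt P.ev (Y P.X),
      (∀ w, ((β w).1 : P022D.Fm.AM O P.M) ∈ Iv O (RD O) (Bq P.M U.N)) ∧
      (∀ w, β w = 0 → (Dq q φ : Tg O) ^ 3 • w = 0) ∧
      ∀ v : P022D.Fm.Mt P.ev (Y P.X), (v.1 : P022D.Fm.AM O P.M) ∈ Iv O (RD O) (Bq P.M U.N) →
        (Dq q φ : Tg O) ^ 3 • v ∈ LinearMap.range β := by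
  obtain ⟨M0, b0, τ0, X0, u0, lv0, ok0, dia0⟩ := P0
  obtain rfl : M0 = U.N := lv0.eq.trans (by rw [Finset.univ_eq_empty, Finset.prod_empty, mul_one])
  obtain ⟨M, b, τ, X, u, lv, ok, dia⟩ := P
  have L := lv.lmF hU
  have L0 := lm0 L
  have h3 : ∀ i, 3 ≤ M / q i := fun i => hU.three.trans
    (Nat.le_of_dvd ((lv.spF hU i).odd.of_dvd_nat (lv.spF hU i).dvd).pos (lv.dvd_div i))
  obtain ⟨β, k1, k2⟩ := hCh O F U M r q (fun i => X.t (φ i)) (fun i => X.d (φ i)) L.odd L.le lv.inj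
    (fun i => ⟨(lv.pr i).1, fun e => lv.ndF hU i (e.mul_left 2)⟩) lv.eq
    (fun i s hs v a b c => N6.op_newF (lv.spF hU i) hs ok.op hU.ok hN (hφ i) a b c)
    (fun i s hs v a => N6.op_tlF (lv.spF hU i) hs ok.op hU.ok hG (h3 i) (hφ i) a) (Y X)
    fun Φ hΦ v w a b c => hY L L (cr_gq L hΦ) ok ok ⟨c, v.2.1, b⟩ a
  rw [← ev_D X u, ← map_pow] at k1 k2
  let e : P022D.Fm.Mt (X0.ev u0) (Y X0) →+ U.PK (Y X) :=
    { toFun := fun v => ⟨⟨ifl O (RD O) L.dvd v.1.1, (hI L).1 _ v.1.2⟩,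
        hY L0 L (cr_up L) ok0 ok (v := v.1) rfl v.2, (mem_sb (stb_Kq _)).2 (ivK L.dvd _)⟩
      map_zero' := Subtype.ext (Subtype.ext (map_zero _))
      map_add' := fun a b => Subtype.ext (Subtype.ext (map_add _ a.1.1 b.1.1)) }
  have es : ∀ (p : Tg O) (v : P022D.Fm.Mt (X0.ev u0) (Y X0)), e (p • v) = X.ev u p • e v := fun p v =>
    Subtype.ext (Subtype.ext (cr_ev (cr_up L) ok0 ok (u₁ := u0) (fun _ _ s => isEmptyElim s)
      (fun v h => u_fix dia lv.bN h) p v.1 (e v).1 rfl).symm)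
  have ei : ∀ v, e v = 0 → v = 0 := fun v h => Subtype.ext (Subtype.ext (ifl_inj L.dvd L.odd
    ((congrArg (fun x : U.PK (Y X) => x.1.1) h).trans (map_zero _).symm)))
  have eo : Function.Surjective e := fun w => by
    obtain ⟨v, a, c⟩ := (hI L).2 _ w.1.2 (P022D.Fm.mem_of_sub w.2.2)
    exact ⟨⟨⟨v, a⟩, hY L L0 (cr_dn L) ok ok0 (v := w.1) c.symm w.2.1⟩, Subtype.ext (Subtype.ext c)⟩
  let γ : (Finset (Fin r) → P022D.Fm.Mt (X0.ev u0) (Y X0)) →ₗ[Tg O] P022D.Fm.Mt (X.ev u) (Y X) :=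
    { toFun := fun w => ⟨(β fun s => e (w s)).1, (β fun s => e (w s)).2.1⟩
      map_add' := fun a b => Subtype.ext (by
        have : (fun s => e ((a + b) s)) = (fun s => e (a s)) + fun s => e (b s) :=
          funext fun s => map_add e _ _
        change (β fun s => e ((a + b) s)).1 = _
        rw [this, map_add]
        rfl)
      map_smul' := fun p a => Subtype.ext (by
        have : (fun s => e ((p • a) s)) = X.ev u p • fun s => e (a s) := funext fun s => es p _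
        change (β fun s => e ((p • a) s)).1 = _
        rw [this, map_smul]
        rfl) }
  refine ⟨γ, fun w => P022D.Fm.mem_of_sub (β fun s => e (w s)).2.2, fun w h => funext fun s => ei _ ?_,
    fun v hv => ?_⟩
  · exact (es _ _).trans (congrFun (k1 (fun s => e (w s))
      (Subtype.ext (congrArg (fun x : P022D.Fm.Mt (X.ev u) (Y X) => x.1) h))) s)
  · obtain ⟨x, hx⟩ := k2 ⟨v.1, v.2, (mem_sb (stb_Bq _)).2 hv⟩
    choose y hy using fun s => eo (x s)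
    refine ⟨y, Subtype.ext ?_⟩
    change (β fun s => e (y s)).1 = _
    rw [funext hy, hx]
    rfl

end Fb

open Vale.Agent.P022D.Fm.Fb Vale.Agent.P022E.Fm.Fb

variable [hC : ∀ l : U.L.C, Fact l.1.Prime] [CharP F 2]

theorem fib_ofF (hU : U.OkF) (hI : P022E.Fm.Fb.Ifl U) (hCh : CHAIN) (hN : P022D.Nw.NEWD O) (hG : P022D.Gt.GT O)
    (hD : DIA U) (hK : CLS U) (Cc : ∀ l : U.L.C, P022D.Rep.Ch (ZMod l.1) F) : FIB U Cc := by
  intro P0 r n q P φ hφ i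
  obtain ⟨β, a, b, c⟩ := P022E.Fm.Fb.coreF hU hI hCh hN hG (P022E.Fm.Fb.famYF hU i.v) P0 P φ hφ
  refine ⟨β, fun s w => (P022E.Fm.Fb.fix_iff hD hK P (P022E.Fm.Fb.y_le _ _) _).2 (a w) s, fun w h => ?_, fun v h => ?_⟩
  · rw [pow_add _ 2 3, mul_smul, b w h, smul_zero]
  · rw [pow_add _ 2 3, mul_smul]
    exact Submodule.smul_mem _ _ (c v ((P022E.Fm.Fb.fix_iff hD hK P (P022E.Fm.Fb.y_le _ _) _).1 h))

theorem dsc_ofF (hU : U.OkF) (hI : P022E.Fm.Fb.Ifl U) (hCh : CHAIN) (hN : P022D.Nw.NEWD O) (hG : P022D.Gt.GT O)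
    (hD : DIA U) (hK : CLS U) : DSC U := by
  classical
  intro P0 r n q P φ hφ j _ w h1 h2
  obtain ⟨β, -, -, c⟩ := P022E.Fm.Fb.coreF hU hI hCh hN hG (P022E.Fm.Fb.famWF hU j) P0 P φ hφ
  have e : ∀ {r n : ℕ} {q : Fin r → ℕ} (P : Lq U r n q),
      P.ev (cc U.ϖ ^ j) = algebraMap O _ (U.ϖ ^ j) := fun P => by
    rw [map_pow, map_pow]
    exact congrArg (· ^ j) (P022E.Fm.Fb.ev_c _ _ _)
  have hw : w.1 ∈ P.X.Wc j := mem_kl1.2 ⟨w.2.1, e P ▸ congrArg Subtype.val h1⟩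
  let w' : P022D.Fm.Mt P.ev (P.X.Wc j) := ⟨w.1, hw⟩
  obtain ⟨f, hf⟩ := c w' ((P022E.Fm.Fb.fix_iff hD hK P ((P022D.W.Step.kl_le _ _).trans (P022E.Fm.Fb.wh_le _)) w).1 h2)
  let g : Finset (Fin r) → P0.W0 := fun s => ⟨(f s).1, (f s).2.1⟩
  refine ⟨Finset.univ.image g, fun v hv => ?_, fun p hp => ?_⟩
  · obtain ⟨s, -, rfl⟩ := Finset.mem_image.1 hv
    exact Subtype.ext ((congrArg (· • (f s).1) (e P0)).trans (mem_kl1.1 (f s).2).2)
  · have h3 : p • f = 0 := funext fun s => Subtype.ext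
      (congrArg (fun x : P0.W0 => x.1) (hp _ (Finset.mem_image_of_mem g (Finset.mem_univ s))))
    have h4 := β.map_smul p f
    rw [h3, map_zero, hf, smul_smul] at h4
    have h5 : (p * Dq q φ ^ 3 : Tg O) • w = 0 :=
      Subtype.ext (congrArg (fun x : P022D.Fm.Mt P.ev (P.X.Wc j) => x.1) h4).symm
    rw [pow_add _ 2 3, mul_assoc, mul_smul, mul_comm, h5, smul_zero]

end Vale.Agent.P022E.Fm
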