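import Vale.Agent.P022E.Fm.FibZ
import Vale.Agent.P022F.Pt.Base
import Vale.Agent.P022F.Pt.FmFib
import Vale.Agent.P022F.Pt.FmFibI

/-!
# P022D, forms side: rows FIB and DSC from the other rows
-/

set_option linter.all false

noncomputable section

namespace Vale.Agent.P022E.Fm

open Vale.Agent.P022 Vale.Agent.P022D.V Vale.Agent.P022E.V

variable {O F : Type} [CommRing O] [IsLocalRing O] [Co O] [Field F] {U : Su O F}
  [hC : ∀ l : U.L.C, Fact l.1.Prime] [CharP F 2]

theorem fibCF (hU : U.OkF) (hT : P022D.Gt.GT O) (hG : GOP U) (hD : DIA U) (hK : CLS U)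
    (Cc : ∀ l : U.L.C, P022D.Rep.Ch (ZMod l.1) F) : FIB U Cc :=
  fib_ofF hU (fun L => gg_iflF hU hG L) chain (P022D.Nw.newdC O) hT hD hK Cc

theorem dscCF (hU : U.OkF) (hT : P022D.Gt.GT O) (hG : GOP U) (hD : DIA U) (hK : CLS U) : DSC U :=
  dsc_ofF hU (fun L => gg_iflF hU hG L) chain (P022D.Nw.newdC O) hT hD hK

end Vale.Agent.P022E.Fm
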