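import Vale.Agent.P022E.Fm.Occ
import Vale.Agent.P022F.Pt.Base

/-!
# P022D, forms side: the residual system occurs at the residual level
-/

set_option linter.all false

open NumberField IsLocalRing

noncomputable section

namespace Vale.Agent.P022E.Fm

open Vale.Agent.P022 Vale.Agent.P022D.V Vale.Agent.P022E.V
open Vale.Agent.P027M.S (mx)

variable {O F : Type} [CommRing O] [Field F] [IsLocalRing O] [Co O] {U : Su O F}

namespace Su.OkF

variable (hU : U.OkF)
include hU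

theorem red_tr (g : GQ) : U.S.red (U.tr g) = (mx U.S.rb g).trace := by
  rw [← hU.ok.lift g, Su.tr, Matrix.trace_fin_two, Matrix.trace_fin_two, map_add]; rfl

theorem red_dt (g : GQ) : U.S.red (U.dt g) = 1 := by
  rw [← hU.ok.det g, ← hU.ok.lift g, Su.dt, RingHom.map_det]; rfl

theorem red_zero {c : O} : U.S.red c = 0 ↔ U.ϖ ∣ c := by
  rw [hU.ok.ker, mem_maximalIdeal, mem_nonunits_iff]
  exact ⟨hU.uni.dvd c, fun h e => hU.uni.nu (isUnit_of_dvd_unit h e)⟩

theorem unit_iff {c : O} : IsUnit c ↔ U.S.red c ≠ 0 := by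
  rw [Ne, hU.ok.ker, mem_maximalIdeal, mem_nonunits_iff, not_not]

/-- all Frobenius elements at a good prime have the same trace and determinant -/
theorem tr_frob {l : ℕ} (hl : l.Prime) (hT : l ∉ U.S.T) {φ : GQ} (hφ : IsFrob l φ) :
    U.tr φ = U.tr (P022D.Fm.fr l) ∧ U.dt φ = U.dt (P022D.Fm.fr l) := by
  obtain ⟨c, hc⟩ := H20.frob_conj U.L.r.toHomUnits hl (fun P hP hlP g hg =>
    Units.ext (hU.unr l hl hT g ⟨P, hP, hlP, hg⟩)) (fr_spec hl) hφ
  rw [← map_inv, ← map_mul, ← map_mul] at hc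
  have e : U.L.r φ = U.L.r (c * P022D.Fm.fr l * c⁻¹) := congrArg Units.val hc
  have e1 : U.L.r c⁻¹ * U.L.r c = 1 := by rw [← map_mul, inv_mul_cancel, map_one]
  constructor
  · rw [Su.tr, Su.tr, e, map_mul, map_mul, Matrix.trace_mul_comm, ← mul_assoc, e1, one_mul]
  · rw [Su.dt, Su.dt, e, map_mul, map_mul, Matrix.det_mul, mul_comm, ← Matrix.det_mul,
      ← mul_assoc, e1, one_mul]

/-- **a prime with unit trace** outside any finite set -/
theorem ex_unit [CharP F 2] (A : Finset ℕ) :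
    ∃ l : ℕ, l.Prime ∧ l ∉ A ∧ l ∉ U.S.T ∧ IsUnit (U.tr (P022D.Fm.fr l)) := by
  obtain ⟨l, φ, k, hl, hA, hφ, hk⟩ := P022D.G.frob U.S.rb.ker inferInstance hU.ok.dh.opn U.S.g0
    (A ∪ U.S.T)
  rw [Finset.mem_union, not_or] at hA
  refine ⟨l, hl, hA.1, hA.2, ?_⟩
  rw [← (hU.tr_frob hl hA.2 hφ).1, hU.unit_iff, hU.red_tr]
  intro h0
  rw [MonoidHom.mem_ker, map_mul, map_inv, inv_mul_eq_one, map_pow] at hk
  have e : mx U.S.rb U.S.g0 = mx U.S.rb φ ^ k := by
    rw [mx, hk, Units.val_pow_eq_pow_val]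
  have h1 := tr_pow h0 k
  rw [← e, Matrix.trace_fin_two] at h1
  have h2 : (2 : F) = 0 := CharP.cast_eq_zero F 2
  exact U.S.dne (by linear_combination h1 - mx U.S.rb U.S.g0 1 1 * h2)

/-- **the residual system occurs** -/
theorem occ [CharP F 2] [NeZero U.N0] : P022D.Th.Occ U.N0 fun p => U.tr (P022D.Fm.fr p) := by
  constructor
  · obtain ⟨k, hk⟩ := hU.res
    refine ⟨k, fun X hX => ?_⟩
    have e : (U.S.red.toIntAlgHom.comp (FreeAlgebra.lift ℤ (Sum.elim
        (fun ℓ : PA U.N0 => U.tr (P022D.Fm.fr ℓ.1)) fun _ => (1 : O)))) =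
        U.S.red.toIntAlgHom.comp (FreeAlgebra.lift ℤ (U.sys U.N0)) := by
      refine FreeAlgebra.hom_ext (funext fun s => ?_)
      simp only [Function.comp_apply, AlgHom.comp_apply, FreeAlgebra.lift_ι_apply]
      rcases s with ℓ | ℓ
      · rfl
      · exact (map_one _).trans (hU.red_dt _).symm
    rw [hU.unit_iff, not_not]
    exact (AlgHom.congr_fun e X).trans (hU.red_zero.2 (hk X hX))
  · obtain ⟨l, hl, hA, -, h⟩ := hU.ex_unit (2 * U.N0).primeFactors
    exact ⟨⟨l, hl, fun e => hA (Nat.mem_primeFactors.2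
      ⟨hl, e, mul_ne_zero two_ne_zero (NeZero.ne _)⟩)⟩, h⟩

end Su.OkF

end Vale.Agent.P022E.Fm
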