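import Vale.Agent.P022E.Fm.Nonv
import Vale.Agent.P022F.Pt.Base
import Vale.Agent.P022F.Pt.FmNz
import Vale.Agent.P022F.Pt.FmSeed

/-!
# P022D, forms side: row NONV
-/

set_option linter.all false

noncomputable section

namespace Vale.Agent.P022E.Fm

open Vale.Agent.P022 Vale.Agent.P022D.V Vale.Agent.P022E.V Vale.Agent.P027M.M Vale.Agent.P022D.Rep
  Vale.Agent.P022E.Rep
open Vale.Agent.P027M.S (mx)

namespace Nz

end Nz

variable {O F : Type} [CommRing O] [IsLocalRing O] [Co O] [Field F] [CharP F 2] {U : Su O F}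

theorem Nz.seedF (hU : U.OkF) : Seed U := by
  obtain ⟨v, h1, h2, h3, h4, h5, h6, h7⟩ := hU.seed
  exact ⟨v, P022D.Fm.mem_Gd.2 ⟨h1, (Nz.mem_Eg_iffF hU).2 h5, h3, h4⟩, h2, fun l hl _ => h6 l hl, h7⟩

variable [hC : ∀ l : U.L.C, Fact l.1.Prime] [Finite F]

/-- **an eigenvector of type `J`**, level `N` -/
theorem nzNF (hU : U.OkF) {n : ℕ} (X : Dt U U.N n) (hX : X.Ok)
    (Cc : ∀ l : U.L.C, Ch (ZMod l.1) F) (J : Finset U.L.C)
    (hJ : ∀ l : U.L.C, mx U.S.rb (U.L.τ l) ≠ 1 → l ∈ J) :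
    ∃ w ∈ X.Y (XJ U.bn Cc J).v, w ≠ 0 ∧
      ∀ g, X.t g • w = U.tr g • w ∧ (X.d g : U.B U.N) • w = U.dt g • w :=
  nz_ofF (Nz.vr O) (P022D.V.par O) (All.div O) (Nz.gtC O) hU (Nz.seedF hU) X hX Cc J hJ

/-- **an eigenvector of type `J`** in the base module -/
theorem nzEF (hU : U.OkF) (Cc : ∀ l : U.L.C, Ch (ZMod l.1) F) (P : L0 U) (J : Finset U.L.C)
    (hJ : ∀ l : U.L.C, mx U.S.rb (U.L.τ l) ≠ 1 → l ∈ J) :
    ∃ w ∈ P.X.Y (XJ U.bn Cc J).v, w ≠ 0 ∧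
      ∀ g, P.X.t g • w = U.tr g • w ∧ (P.X.d g : U.B P.M) • w = U.dt g • w := by
  obtain ⟨M, b, τ, X, u, lv, ok, dia⟩ := P
  have e : M = U.N := by simpa using lv.eq
  subst e
  exact nzNF hU X ok Cc J hJ

/-- **row NONV** -/
theorem nonvCF (hU : U.OkF) (Cc : ∀ l : U.L.C, Ch (ZMod l.1) F) : NONV U Cc := by
  intro P J hJ e
  obtain ⟨w, hw, w0, -⟩ := nzEF hU Cc P J hJ
  exact w0 ((Submodule.mem_bot _).1 (e ▸ hw))

end Vale.Agent.P022E.Fm
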