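import Vale.Agent.P022E.Fm.Prj
import Vale.Agent.P022F.Pt.Base
import Vale.Agent.P022F.Pt.FmBasic

/-!
# P022D, forms side: rows PRJ and DV0
-/

set_option linter.all false

noncomputable section

namespace Vale.Agent.P022E.Fm

open Vale.Agent.P022 Vale.Agent.P022D.V Vale.Agent.P022E.V
open Vale.Agent.P022D.W.Step (Dv)

namespace Pj

variable {O : Type} [CommRing O] [Co O] {M N K n : ℕ}

end Pj

open Vale.Agent.P022D.Fm.Pj Vale.Agent.P022E.Fm.Pj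

variable {O F : Type} [CommRing O] [IsDomain O] [IsDiscreteValuationRing O] [P022D.Core.Coef O] [Co O]
  [Field F] {U : Su O F}

theorem Zw_eqF (hU : U.OkF) {M : ℕ} (n : ℕ) (L : U.Lm M) : U.Zw M n =
    Eg O (RD O) (P022E.Fm.Pj.Hb M U.N (M / U.NC) n) (P022E.Fm.Pj.chi U.om (U.z ^ (U.N - 1))) := by
  haveI : NeZero M := ⟨L.odd.pos.ne'⟩
  have hz (x : ℕ) : U.z ^ x * (U.z ^ (U.N - 1)) ^ x = 1 := by
    rw [← mul_pow, mul_pow_sub_one hU.Nne, hU.zN, one_pow]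
  have hw : (U.z ^ (U.N - 1)) ^ U.N = 1 := by rw [← pow_mul, mul_comm, pow_mul, hU.zN, one_pow]
  have o1 {a : ZMod M} (h : P022D.V.Cg M U.N a 1) : U.om a.val = 1 :=
    (hU.omp _ 1 (P022E.Fm.Pj.cg_val L.dvd (by simpa using h))).trans hU.om1
  ext v
  refine ⟨fun h => ?_, fun h => ⟨⟨mem_Ce.2 fun a ha => ?_, fun x => ?_⟩,
    mem_TQ.2 fun a d ha hd => ?_⟩⟩
  · rintro _ ⟨x, _, _, ⟨c, a, d, h1, h2, h3, rfl, rfl⟩, rfl⟩
    have k1 := mem_Ce.1 h.1.1 c h1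
    have k2 := mem_TQ.1 h.2 a d h2 h3
    have k3 : P022D.Fm.rD O (un x) v = (U.z ^ (U.N - 1)) ^ x.val • v := by
      have := h.1.2 x.val
      rw [ZMod.natCast_zmod_val] at this
      conv_rhs => rw [← this, smul_smul, mul_comm, hz, one_smul]
      rfl
    have k4 : U.om ((c * a ^ 2 ^ n : (ZMod M)ˣ) : ZMod M).val = U.om (c : ZMod M).val :=
      hU.omp _ _ (P022E.Fm.Pj.cg_val L.dvd (by
        simpa using cg_mul2 (cg_refl (N := U.N) (c : ZMod M)) (P022E.Fm.Pj.cgp h2 (2 ^ n))))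
    rw [P022E.Fm.Pj.chi_ud, k4, ← rD_apply, ← dg_mul, rD_mul, rD_mul, Module.End.mul_apply,
      Module.End.mul_apply, k2, k1, map_smul, k3, smul_smul]
  · have := h _ ⟨0, a, a, ⟨a, 1, 1, ha, cg_refl _, cg_refl _, by simp, by simp⟩, rfl⟩
    rwa [P022E.Fm.Pj.chi_ud, P022E.Fm.Pj.un0, one_mul, ZMod.val_zero, pow_zero, mul_one] at this
  · have := h _ ⟨x, 1, 1, P022E.Fm.Pj.Dp.one, rfl⟩
    rw [P022E.Fm.Pj.chi_ud, dg_one, mul_one, Units.val_one, o1 (cg_refl _), one_mul,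
      P022E.Fm.Pj.pw_mod hw (P022E.Fm.Pj.cg_val L.dvd (cg_refl (x : ZMod M)))] at this
    rw [this, smul_smul, hz, one_smul]
  · have := h _ ⟨0, _, _, ⟨1, a, d, cg_refl _, ha, hd, (one_mul _).symm, (one_mul _).symm⟩, rfl⟩
    rwa [P022E.Fm.Pj.chi_ud, P022E.Fm.Pj.un0, one_mul, ZMod.val_zero, pow_zero, mul_one, o1 (P022E.Fm.Pj.cgp ha _), one_smul] at this

theorem chi_mulF (hU : U.OkF) {M K n : ℕ} (L : U.Lm M) : ∀ g ∈ P022E.Fm.Pj.Hb M U.N K n, ∀ h ∈ P022E.Fm.Pj.Hb M U.N K n,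
    P022E.Fm.Pj.chi U.om (U.z ^ (U.N - 1)) (g * h) =
      P022E.Fm.Pj.chi U.om (U.z ^ (U.N - 1)) g * P022E.Fm.Pj.chi U.om (U.z ^ (U.N - 1)) h := by
  haveI : NeZero M := ⟨L.odd.pos.ne'⟩
  have hw : (U.z ^ (U.N - 1)) ^ U.N = 1 := by rw [← pow_mul, mul_comm, pow_mul, hU.zN, one_pow]
  rintro _ ⟨x, A, D, h, rfl⟩ _ ⟨y, A', D', h', rfl⟩
  rw [P022E.Fm.Pj.ud_mul, P022E.Fm.Pj.chi_ud, P022E.Fm.Pj.chi_ud, P022E.Fm.Pj.chi_ud, mul_mul_mul_comm, ← hU.omm, ← pow_add]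
  congr 1
  · exact hU.omp _ _ (P022E.Fm.Pj.cg_val L.dvd (by simpa using cg_refl _))
  · obtain ⟨t, ht⟩ := h.cg
    refine P022E.Fm.Pj.pw_mod hw (P022E.Fm.Pj.cg_val L.dvd ⟨y * t, ?_⟩)
    rw [ht, Nat.cast_add, ZMod.natCast_zmod_val, ZMod.natCast_zmod_val]
    ring

theorem dv0CF (hU : U.OkF) : DV0 U := fun M n L v hv => by
  haveI : NeZero M := ⟨L.odd.pos.ne'⟩
  haveI := P022E.Fm.Pj.finq hU.uni
  have st := stb_Zw (U := U) L.dvd hU.zN n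
  have h1 : P022E.Fm.Pj.chi U.om (U.z ^ (U.N - 1)) (1 : GM M) = 1 := by
    have := P022E.Fm.Pj.chi_ud U.om (U.z ^ (U.N - 1)) (0 : ZMod M) 1 1
    rwa [P022E.Fm.Pj.un0, dg_one, mul_one, ZMod.val_zero, pow_zero, mul_one,
      hU.omp _ 1 (P022E.Fm.Pj.cg_val L.dvd (by simpa using cg_refl _)), hU.om1] at this
  obtain ⟨u, hu, k, e⟩ := P022E.Fm.Pj.dvE L.odd L.three hU.uni (P022E.Fm.Pj.hn2 hU.uni) hU.uni.ne _ _ h1 (chi_mulF hU L)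
    v.2 (Zw_eqF hU n L ▸ (mem_sb st).1 hv)
  exact ⟨⟨u, hu⟩, (mem_sb st).2 (Zw_eqF hU n L ▸ k), Subtype.ext e⟩

end Vale.Agent.P022E.Fm
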