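import Vale.Agent.P022E.Fm.Unit
import Vale.Agent.P022F.Pt.Base

/-!
# P022D, forms side: units among the traces of the point
-/

set_option linter.all false

noncomputable section

namespace Vale.Agent.P022E.Fm

open IsLocalRing NumberField
open scoped Pointwise
open Vale.Agent.P022 Vale.Agent.P022D.R Vale.Agent.P022E.R
open Vale.Agent.P027M.S (mx)
open Vale.Agent.P022D.Sel (M2)
open Vale.Agent.P022E.Sel (Dh)
open Vale.Agent.P022E.Loc (Pl)

variable {O F : Type} [CommRing O] [Field F] {S : Dat O F}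

variable [IsLocalRing O] {L : Pl O}

theorem red_traceF (hL : L.OkF S) (g : GQ) : S.red (L.r g).trace = (mx S.rb g).trace := by
  rw [← hL.lift g]; exact AddMonoidHom.map_trace S.red (L.r g)

theorem unit_of_redF (hL : L.OkF S) {c : O} (h : S.red c ≠ 0) : IsUnit c :=
  notMem_maximalIdeal.1 fun e => h ((hL.ker c).2 e)

theorem unit_trF (hL : L.OkF S) {l : ℕ} (hl : l ∈ L.C) (hs : mx S.rb (L.τ l) ≠ 1) :
    ∃ g, IsUnit ((L.r (g * L.τ l)).trace - (L.r g).trace) := by
  obtain ⟨g, hg⟩ := not_forall.1 fun k => hs (hL.sep l hl k)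
  exact ⟨g, unit_of_redF hL (by rw [map_sub, red_traceF hL, red_traceF hL]; exact sub_ne_zero.2 hg)⟩

end Vale.Agent.P022E.Fm
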