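import Vale.Agent.P022E.Fm.Sb
import Vale.Agent.P022F.Pt.Base
import Vale.Agent.P022F.Pt.FmSbA
import Vale.Agent.P022F.Pt.FmUnit

/-!
# P022D, forms side: the socles are bounded
-/

set_option linter.all false

open Matrix IsLocalRing

noncomputable section

namespace Vale.Agent.P022E.Fm.Sb

open Vale.Agent.P022 Vale.Agent.P022D.V Vale.Agent.P022E.V Vale.Agent.P022D.Gt Vale.Agent.P022E.Gt
open Vale.Agent.P027M.M (ze)
open Vale.Agent.P027M.S (mx)
open Vale.Agent.P022D.As (Tg cc tt dd yy mT ev0 Sb2)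

variable {O F : Type} [CommRing O] [IsLocalRing O] [Co O] [Field F] {U : Su O F}

section lev

variable {r n M : ℕ} {q : Fin r → ℕ} {b : Fin r → (ZMod M)ˣ} {τ : Fin r → GQ}

theorem prCF (hU : U.OkF) (l : U.L.C) : l.1.Prime ∧ l.1 ≠ 2 :=
  hU.ok.pr _ (Finset.mem_union_right _ l.2)

theorem NC_eqF (hU : U.OkF) : U.NC = ∏ l : U.L.C, l.1 := by
  rw [hU.NC, Finset.prod_coe_sort U.L.C fun l => l]

theorem mem_of_dvdF (hU : U.OkF) {p : ℕ} (hp : p.Prime) (h : p ∣ U.N) : p ∈ U.L.W ∪ U.L.C := by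
  rcases (Nat.Prime.dvd_mul hp).1 h with h | h
  · exact Finset.mem_union_left _ ((hU.NW p hp).1 h)
  · rw [NC_eqF hU] at h
    obtain ⟨l, -, hl⟩ := (hp.prime.dvd_finset_prod_iff _).1 h
    rw [(Nat.prime_dvd_prime_iff_eq hp (prCF hU l).1).1 hl]
    exact Finset.mem_union_right _ l.2

theorem aux_ofF (hU : U.OkF) (lv : Lv U r n M q b τ) : Aux M U.N n q b := by
  have hT : ∀ p ∈ U.L.W ∪ U.L.C, p ∈ U.S.T := fun p hp => by
    rw [hU.ok.hT]
    exact Finset.mem_insert_of_mem (Finset.mem_insert_of_mem hp)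
  refine ⟨?_, lv.eq, lv.inj, fun j => ⟨(lv.pr j).1, fun h =>
    (lv.pr j).2 (hT _ (mem_of_dvdF hU (lv.pr j).1 h))⟩, lv.b1, lv.gen⟩
  rw [← Nat.not_even_iff_odd, even_iff_two_dvd, lv.eq]
  intro h
  rcases (Nat.Prime.dvd_mul Nat.prime_two).1 h with h | h
  · exact (hU.ok.pr _ (mem_of_dvdF hU Nat.prime_two h)).2 rfl
  · obtain ⟨j, -, hj⟩ := (Nat.prime_two.prime.dvd_finset_prod_iff _).1 h
    refine (lv.pr j).2 ?_
    rw [← (Nat.prime_dvd_prime_iff_eq Nat.prime_two (lv.pr j).1).1 hj, hU.ok.hT]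
    exact Finset.mem_insert_of_mem (Finset.mem_insert_self _ _)

theorem NS_CSF (hU : U.OkF) (S : Finset U.L.C) : U.N = NS U S * CS U S := by
  classical
  rw [Su.N, NS, CS, NC_eqF hU, mul_assoc, Finset.prod_mul_prod_compl]

theorem cop_NSF (hU : U.OkF) (S : Finset U.L.C) : Nat.Coprime (NS U S) (CS U S) := by
  classical
  refine Nat.Coprime.prod_right fun l hl => Nat.Coprime.symm ?_
  refine (prCF hU l).1.coprime_iff_not_dvd.2 fun h => ?_
  rcases (Nat.Prime.dvd_mul (prCF hU l).1).1 h with h | h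
  · exact Finset.disjoint_left.1 hU.ok.dj ((hU.NW _ (prCF hU l).1).1 h) l.2
  · obtain ⟨l', h1, h2⟩ := ((prCF hU l).1.prime.dvd_finset_prod_iff _).1 h
    rw [← Subtype.ext ((Nat.prime_dvd_prime_iff_eq (prCF hU l).1 (prCF hU l').1).1 h2)] at h1
    exact Finset.mem_compl.1 hl h1

theorem spCF (hU : U.OkF) (A : Aux M U.N n q b) (l : U.L.C) :
    Sp M (M / l.1) l.1 ∧ M / l.1 = U.N / l.1 * ∏ j, q j ∧ M / U.NC = U.NW * ∏ j, q j ∧
      M / U.NC ∣ M / l.1 := by
  classical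
  have p := (prCF hU l).1
  have e : U.N = NS U {l}ᶜ * l.1 := by
    rw [NS_CSF hU {l}ᶜ, CS, compl_compl, Finset.prod_singleton]
  have c := cop_NSF hU {l}ᶜ
  rw [CS, compl_compl, Finset.prod_singleton] at c
  have e1 : U.N / l.1 = NS U {l}ᶜ := by rw [e, Nat.mul_div_cancel _ p.pos]
  have e2 : M / l.1 = NS U {l}ᶜ * ∏ j, q j := by
    rw [A.eq, e, mul_right_comm, Nat.mul_div_cancel _ p.pos]
  have e3 : M / U.NC = U.NW * ∏ j, q j := by
    have h0 : 0 < U.NC := Nat.pos_of_ne_zero fun h => A.odd.pos.ne' (by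
      rw [A.eq, Su.N, h, mul_zero, zero_mul])
    rw [A.eq, Su.N, mul_right_comm, Nat.mul_div_cancel _ h0]
  refine ⟨⟨?_, ?_, p, A.odd⟩, by rw [e1, e2], e3, ?_⟩
  · rw [e2, mul_right_comm, ← e, A.eq]
  · rw [e2]
    refine Nat.Coprime.mul_left c (Nat.Coprime.prod_left fun j _ => ?_)
    exact (A.pr j).1.coprime_iff_not_dvd.2 fun h => (A.pr j).2 (h.trans ⟨_, by rw [e, mul_comm]⟩)
  · rw [e2, e3]
    exact Nat.mul_dvd_mul_right (dvd_mul_right _ _) _

variable [hC : ∀ l : U.L.C, Fact l.1.Prime] [CharP F 2] {X : Dt U M n}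
  {Cc : ∀ l : U.L.C, P022D.Rep.Ch (ZMod l.1) F}

/-- invariance outside `S` -/
theorem inv_XSF (hU : U.OkF) (A : Aux M U.N n q b) (hX : X.Ok) {S : Finset U.L.C} {w : U.Wb M n}
    (hw : w ∈ X.E.Y (P022D.Rep.XS U.bn Cc S).v) :
    tu w ∈ Iv O (RD O) (Kq M (NS U S * ∏ j, q j)) := by
  classical
  refine mem_Iv.2 fun h hh => ?_
  have dv : ∀ l : U.L.C, l.1 ∣ M := fun l => Dvd.intro_left _ (spCF hU A l).1.eq.symm
  have e : M / U.NC ∣ NS U S * ∏ j, q j := by
    have h0 : 0 < U.NC := Nat.pos_of_ne_zero fun h => A.odd.pos.ne' (by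
      rw [A.eq, Su.N, h, mul_zero, zero_mul])
    rw [A.eq, Su.N, mul_right_comm, Nat.mul_div_cancel _ h0]
    exact Nat.mul_dvd_mul_right (dvd_mul_right _ _) _
  let γ : ∀ l, U.Gam l := fun l => QuotientGroup.mk (pr (dv l) h)
  have a := hX.act h (kq_mono e hh) γ (fun _ _ => rfl) w
  let H : Subgroup (∀ l, U.Gam l) :=
    { carrier := {g | X.E.ρ g w = w}
      one_mem' := by change X.E.ρ 1 w = w; rw [map_one]; rfl
      mul_mem' := fun {g g'} a b => by
        change X.E.ρ (g * g') w = w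
        rw [map_mul, Module.End.mul_apply, b, a]
      inv_mem' := fun {g} a => by
        change X.E.ρ g⁻¹ w = w
        conv_lhs => rw [← a]
        rw [← Module.End.mul_apply, ← map_mul, inv_mul_cancel, map_one]
        rfl }
  have m : γ ∈ H := Subgroup.pi_mem_of_mulSingle_mem γ fun l => by
    by_cases hl : l ∈ S
    · have : γ l = 1 := by
        change QuotientGroup.mk (pr (dv l) h) = 1
        rw [pr_kq _ (kq_mono ((dvd_NS hl).mul_right _) hh)]
        rfl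
      rw [this, Pi.mulSingle_one]
      exact H.one_mem
    · exact ((X.E.mem_XS S w).1 hw).2 l hl _
  rw [show X.E.ρ γ w = w from m] at a
  exact a.symm

/-- the action of the unipotent group at `l` -/
theorem un_actF (hU : U.OkF) (A : Aux M U.N n q b) (hX : X.Ok) (l : U.L.C) (y : ℕ) (w : U.Wb M n) :
    tu (X.E.ρ (Pi.mulSingle l ((U.bn l).u ((M / l.1 * y : ℕ) : ZMod l.1))) w) =
      rt O _ (un ((M / l.1 * y : ℕ) : ZMod M)) (tu w) := by
  classical
  refine hX.act _ (kq_mono (spCF hU A l).2.2.2 (un_kq _ y)) _ (fun l' hl' => ?_) w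
  by_cases e : l' = l
  · subst e
    rw [Pi.mulSingle_eq_same, pr_un, map_natCast]
    rfl
  · rw [Pi.mulSingle_eq_of_ne e, pr_kq _ (kq_mono (Cyc.dvd_div (spCF hU A l).1 hl'
      ((Nat.coprime_primes (prCF hU l').1 (prCF hU l).1).2 fun h => e (Subtype.ext h)))
      (un_kq _ y))]
    rfl

/-- the Whittaker condition at `W` and `S` -/
theorem wh_XSF (hU : U.OkF) (A : Aux M U.N n q b) (hX : X.Ok) (hc : U.IsCh Cc)
    {S : Finset U.L.C} {w : U.Wb M n} (hw : w ∈ X.E.Y (P022D.Rep.XS U.bn Cc S).v) {c : ℕ}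
    (he : CS U S * c ≡ 1 [MOD NS U S]) : tu w ∈ Wh O (RD O) M ((U.z ^ CS U S) ^ c) := by
  classical
  haveI : NeZero M := ⟨A.odd.pos.ne'⟩
  have N0 : U.N ≠ 0 := fun h => A.odd.pos.ne' (by rw [A.eq, h, zero_mul])
  have zN := z_pow N0 hU.z
  have zM : U.z ^ M = 1 := by rw [A.eq, pow_mul, zN, one_pow]
  have md : ∀ {x y : ℕ}, x ≡ y [MOD NS U S] → x ≡ y [MOD CS U S] → U.z ^ x = U.z ^ y :=
    fun h1 h2 => pow_mod zN (by
      rw [NS_CSF hU S]
      exact (Nat.modEq_and_modEq_iff_modEq_mul (cop_NSF hU S)).1 ⟨h1, h2⟩)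
  have m1 : ∀ x : ℕ, CS U S ∣ x → U.z ^ (CS U S * c * x) = U.z ^ x := fun x hx =>
    md (by simpa using he.mul_right x)
      ((Nat.modEq_zero_iff_dvd.2 (hx.mul_left _)).trans (Nat.modEq_zero_iff_dvd.2 hx).symm)
  let P : ℕ → Prop := fun x => U.z ^ (CS U S * c * x) • rt O _ (un (x : ZMod M)) (tu w) = tu w
  have Pm : ∀ x y : ℕ, (x : ZMod M) = y → P x → P y := fun x y h a => by
    unfold P at a ⊢
    rw [← h, ← pow_mod zM (((ZMod.natCast_eq_natCast_iff _ _ _).1 h).mul_left _), a]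
  have Pa : ∀ x y, P x → P y → P (x + y) := fun x y a d => by
    unfold P at a d ⊢
    rw [Nat.cast_add, un_add, mul_add, pow_add, mul_smul, ← rt_rt, ← map_smul, d, a]
  have P1 : ∀ y, P (U.NC * y) := fun y => by
    unfold P
    rw [m1 _ (Dvd.dvd.mul_right (by
      rw [NC_eqF hU, CS]
      exact Finset.prod_dvd_prod_of_subset _ _ _ (Finset.subset_univ _)) _)]
    have e := (Submodule.mem_iInf _).1 (tu_mem w).1.1.2 y
    rw [LinearMap.mem_ker, LinearMap.sub_apply, sub_eq_zero] at e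
    exact e
  have P2 : ∀ (l : U.L.C) y, P (M / l.1 * y) := fun l y => by
    unfold P
    have p := (prCF hU l).1
    rw [← un_actF hU A hX l y w]
    by_cases hl : l ∈ S
    · obtain ⟨k, hk⟩ := dvd_NS hl
      have e : U.N / l.1 = k * CS U S := by
        rw [NS_CSF hU S, hk, mul_assoc, Nat.mul_div_cancel_left _ p.pos]
      rw [((X.E.mem_XS S w).1 hw).1 l hl, m1 _ (by
        rw [(spCF hU A l).2.1, e]
        exact ((dvd_mul_left _ _).mul_right _).mul_right _)]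
      have e1 := hc l ((∏ j, q j) * y)
      rw [← mul_assoc, ← (spCF hU A l).2.1, ← map_pow, mul_comm] at e1
      have e2 := hX.sc (U.z ^ (M / l.1 * y))
        (X.E.sc ((Cc l).ψ ((M / l.1 * y : ℕ) : ZMod l.1)) w)
      rw [← Module.End.mul_apply, ← map_mul, e1, map_one] at e2
      exact (congrArg tu e2).symm
    · obtain ⟨k, hk⟩ := dvd_CS hl
      have e : U.N / l.1 = NS U S * k := by
        rw [NS_CSF hU S, hk, mul_left_comm, Nat.mul_div_cancel_left _ p.pos]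
      rw [((X.E.mem_XS S w).1 hw).2 l hl, md (y := 0) (Nat.modEq_zero_iff_dvd.2 ?_)
        (Nat.modEq_zero_iff_dvd.2 ((dvd_mul_right _ _).mul_right _)), pow_zero, one_smul]
      rw [(spCF hU A l).2.1, e]
      exact (((dvd_mul_right _ _).mul_right _).mul_right _).mul_left _
  have key : ∀ T : Finset U.L.C, (∀ y, P ((∏ l ∈ T, l.1) * y)) → ∀ y, P y := fun T => by
    induction T using Finset.induction_on with
    | empty => simp
    | insert l T hl ih =>
      intro h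
      refine ih fun y => ?_
      obtain ⟨e, f, D⟩ := GrpP.dat (spCF hU A l).1
      obtain ⟨u, hu⟩ := D.eM
      obtain ⟨v, hv⟩ := D.fq
      refine Pm _ _ ?_ (Pa _ _ (h (v.val * y)) (P2 l (u.val * ((∏ l ∈ T, l.1) * y))))
      rw [Finset.prod_insert hl]
      have ad := D.add
      simp only [Nat.cast_add, Nat.cast_mul, ZMod.natCast_zmod_val]
      linear_combination (((∏ l ∈ T, l.1 : ℕ) : ZMod M) * y) * (ad - hu - hv)
  intro x
  rw [← pow_mul, ← pow_mul, ← mul_assoc]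
  exact key Finset.univ (by rw [← NC_eqF hU]; exact P1) x

end lev

variable [hC : ∀ l : U.L.C, Fact l.1.Prime] [CharP F 2] [Finite F]

/-- **SB**: the socles are spanned by a number of elements which only depends on `r` -/
theorem sbF (hE : GEN O) (hD : DIV O) (hP : PAR O) (hV : DESCV O) (hG : GT O) (hU : U.OkF) (r : ℕ) :
    ∃ b : ℕ, ∀ (n M : ℕ) (q : Fin r → ℕ) (b' : Fin r → (ZMod M)ˣ) (τ : Fin r → GQ),
    Lv U r n M q b' τ → ∀ X : Dt U M n, X.Ok → ∀ u, IsDia b' u → ∀ Cc, U.IsCh Cc →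
    ∀ (a : P022D.Rep.TX U.bn Cc) (K : Submodule (U.B M) (U.GG M)), K ≤ X.Y1 a.v →
      Sb2 (mT U.L.r) b (P022D.Fm.Mt (X.ev u) K) := by
  classical
  obtain ⟨b, hb⟩ := genDF (S := U.S) (L := U.L) hE hD hP hV hG r
  refine ⟨b, fun n M q b' τ lv X hX u hu Cc hc a K hK => ?_⟩
  have A := aux_ofF hU lv
  haveI : NeZero M := ⟨A.odd.pos.ne'⟩
  obtain ⟨S, hS⟩ := X.E.le_XS a
  let ι : P022D.Fm.Mt (X.ev u) K →+ P022D.Fm.AM O M :=
    ((U.GG M).subtype.toAddMonoidHom).comp K.subtype.toAddMonoidHom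
  have inj : Function.Injective ι := Subtype.val_injective.comp Subtype.val_injective
  have sm : ∀ (p : Tg O) (w : P022D.Fm.Mt (X.ev u) K),
      ι (p • w) = ((X.ev u p • ((show K from w) : U.GG M) : U.GG M) : P022D.Fm.AM O M) := fun _ _ => rfl
  have ic : ∀ (o : O) w, ι (cc o • w) = o • ι w := fun o w => by rw [sm, ev_cc]; rfl
  let P : P022D.Fm.Mt (X.ev u) K → Prop := fun w => ∀ p ∈ mT U.L.r, p • w = 0
  let Xs : Submodule O (P022D.Fm.AM O M) :=
    { carrier := {v | ∃ w, P w ∧ ι w = v}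
      zero_mem' := ⟨0, fun _ _ => smul_zero _, map_zero _⟩
      add_mem' := by
        rintro _ _ ⟨w, a, rfl⟩ ⟨w', a', rfl⟩
        exact ⟨w + w', fun p hp => by rw [smul_add, a p hp, a' p hp, add_zero], map_add _ _ _⟩
      smul_mem' := by
        rintro o _ ⟨w, a, rfl⟩
        exact ⟨cc o • w, fun p hp => by rw [smul_comm, a p hp, smul_zero], ic o w⟩ }
  have ex : ∀ w : P022D.Fm.Mt (X.ev u) K, ∃ w' ∈ X.E.Y (P022D.Rep.XS U.bn Cc S).v, tu w' = ι w := fun w => by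
    obtain ⟨w', h1, h2⟩ := hK (show K from w).2
    exact ⟨w', hS h1, congrArg Subtype.val h2⟩
  have h0 : ∀ w, U.ϖ • ι w = 0 := fun w => by
    obtain ⟨w', -, e⟩ := ex w
    exact e ▸ (tu_mem w').2
  have ft : ∀ w, P w → ∀ g, ((X.t g • ((show K from w) : U.GG M) : U.GG M) : P022D.Fm.AM O M) =
      (U.L.r g).trace • ι w := fun w hw g => by
    have e := hw (tt g - cc (U.L.r g).trace) (by simp [mT, ev0, tt, cc])
    rw [sub_smul, sub_eq_zero] at e
    rw [← ic, ← e, sm, ev_tt]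
  have fd : ∀ w, P w → ∀ g, (((X.d g : U.B M) • ((show K from w) : U.GG M) : U.GG M) : P022D.Fm.AM O M) =
      ι w := fun w hw g => by
    have e := hw (dd g - cc (U.L.r g).det) (by simp [mT, ev0, dd, cc])
    rw [sub_smul, sub_eq_zero] at e
    rw [← ev_dd u, ← sm, e, ic, sm_eqF hU.ok hU.uni (b := 1) (by rw [red_detF hU.ok, map_one]) (h0 w),
      one_smul]
  have fy : ∀ w, P w → ∀ j, rt O _ (dg 1 (b' j)) (ι w) = ι w := fun w hw j => by
    have e := congrArg ι (hw (yy j) (by simp [mT, ev0, yy]))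
    rw [sm, ev_yy, sub_smul, one_smul, map_zero, Submodule.coe_sub, (hu j).1, sub_eq_zero] at e
    exact e
  suffices h : ∃ s : Finset (P022D.Fm.AM O M), s.card ≤ b ∧ Submodule.span O (s : Set _) = Xs by
    obtain ⟨s, s1, s2⟩ := h
    exact sb2_of ι inj cc ic P (fun _ _ => smul_zero _) s s1
      (fun x hx => show x ∈ Xs from s2 ▸ Submodule.subset_span hx)
      (fun w hw => s2.symm ▸ (⟨w, hw, rfl⟩ : ι w ∈ Xs))
  have eN := NS_CSF hU S
  have dN : NS U S ∣ U.N := ⟨_, eN⟩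
  have oN : Odd (NS U S) := A.odd.of_dvd_nat (dN.trans ⟨_, A.eq⟩)
  by_cases h3 : 3 ≤ NS U S
  · haveI : NeZero (NS U S) := ⟨oN.pos.ne'⟩
    let c := ((ZMod.unitOfCoprime _ (cop_NSF hU S).symm)⁻¹ : (ZMod (NS U S))ˣ)
    have he : CS U S * (c : ZMod (NS U S)).val ≡ 1 [MOD NS U S] := by
      rw [← ZMod.natCast_eq_natCast_iff, Nat.cast_mul, ZMod.natCast_zmod_val,
        ← ZMod.coe_unitOfCoprime _ (cop_NSF hU S).symm, Units.mul_inv, Nat.cast_one]
    refine hb M U.N (NS U S) U.i (c : ZMod (NS U S)).val (List.ofFn q) (U.z ^ CS U S) U.ϖ ∅ hU.ok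
      hU.uni A.odd A.eq' dN h3 A.nodup (List.forall_mem_ofFn_iff.2 A.pr) List.length_ofFn ?_
      (ZMod.val_coe_unit_coprime c) Xs ?_ ?_ ?_ ?_
    · rw [map_pow, hU.z, eN]
      refine Cyc.ze_pw oN.pos.ne' fun h => A.odd.pos.ne' ?_
      rw [A.eq, eN, h, mul_zero, zero_mul]
    · rintro _ ⟨w, -, rfl⟩
      obtain ⟨w', h1, e⟩ := ex w
      rw [← e, List.prod_ofFn]
      exact ⟨⟨(w' : U.GG M).2.1, inv_XSF hU A hX h1⟩, wh_XSF hU A hX hc h1 he⟩
    · rintro _ ⟨w, -, rfl⟩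
      exact h0 w
    · rintro x y hx hy _ ⟨w, hw, rfl⟩
      obtain ⟨w', -, e⟩ := ex w
      have tq : ∀ x y : (ZMod M)ˣ, Cg M U.N x 1 → Cg M U.N y 1 →
          dg (x ^ 2 ^ n) (y ^ 2 ^ n) ∈ stH O (ι w) := fun x y hx hy => by
        rw [← e]
        exact mem_Iv.1 (tu_mem w').1.2 _ ⟨x, y, hx, hy, rfl⟩
      have b2 : ∀ j, dg 1 (b' j) ∈ stH O (ι w) := fy w hw
      have b1 : ∀ j, dg (b' j) 1 ∈ stH O (ι w) := fun j => by
        have e1 : dg (b' j) (b' j) ∈ stH O (ι w) :=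
          (hX.op.dI (q j) (lv.pr j).1 (fun h => by
            have := (A.sp j).1.odd.of_dvd_nat (Dvd.intro_left _ (A.sp j).1.eq.symm)
            rw [h] at this
            exact absurd this (by decide)) (τ j) (lv.ine j) (b' j) (lv.cyc j) _).symm.trans
            (fd w hw _)
        have e2 := (stH O (ι w)).mul_mem e1 ((stH O (ι w)).inv_mem (b2 j))
        rwa [show dg (b' j) (b' j) = dg (b' j) 1 * dg 1 (b' j) by rw [dg_mul, mul_one, one_mul],
          mul_inv_cancel_right] at e2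
      have k1 := A.mem ((stH O (ι w)).comap (dgl M)) b1 (fun j c h => by
        have := tq c 1 (Cyc.Cg.of_dvd h (A.sp j).2) Cyc.cg_one
        rwa [one_pow] at this) hx
      have k2 := A.mem ((stH O (ι w)).comap (dgr M)) b2 (fun j c h => by
        have := tq 1 c Cyc.cg_one (Cyc.Cg.of_dvd h (A.sp j).2)
        rwa [one_pow] at this) hy
      rw [show dg x y = dg x 1 * dg 1 y by rw [dg_mul, mul_one, one_mul]]
      exact (stH O (ι w)).mul_mem k1 k2
    · rintro p φ hp - hM hφ _ ⟨w, hw, rfl⟩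
      have e : P022D.Fm.uP (⟨p, hp, hM⟩ : PA M) = cl M p :=
        Units.ext ((ZMod.coe_unitOfCoprime _ _).trans (nd2 hp hM).2.symm)
      rw [← e]
      exact ⟨(hX.op.frT ⟨p, hp, hM⟩ φ hφ _).symm.trans (ft w hw φ),
        (hX.op.frS ⟨p, hp, hM⟩ φ hφ _).symm.trans (fd w hw φ)⟩
  · have e1 : NS U S = 1 := by
      obtain ⟨k, hk⟩ := oN
      omega
    obtain ⟨l, hl, hτ⟩ := hU.W3.resolve_left fun ⟨l, hl⟩ => by
      have p := (hU.ok.pr l (Finset.mem_union_left _ hl)).1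
      exact p.one_lt.ne' (Nat.dvd_one.1 (e1 ▸ ((hU.NW l p).2 hl).mul_right _))
    have hl' := Finset.mem_union_right U.L.W hl
    obtain ⟨g, hg⟩ := unit_trF hU.ok hl hτ
    refine ⟨∅, Nat.zero_le _, ?_⟩
    rw [Finset.coe_empty, Submodule.span_empty]
    refine ((Submodule.eq_bot_iff _).2 ?_).symm
    rintro _ ⟨w, hw, rfl⟩
    obtain ⟨w', h1, e⟩ := ex w
    have sp := spCF hU A ⟨l, hl⟩
    have m : ι w ∈ Iv O (RD O) (Kq M (M / l)) := mem_Iv.2 fun h hh => by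
      rw [← e]
      refine mem_Iv.1 (inv_XSF hU A hX h1) h (kq_mono ?_ hh)
      rw [e1, sp.2.1]
      exact Nat.mul_dvd_mul_right (one_dvd _) _
    have e2 := congrArg Subtype.val (hX.op.ur _ l sp.1 (U.L.τ l)
      ⟨_, (hU.ok.hP l hl').1, (hU.ok.hP l hl').2, (hU.ok.tm l hl').tau⟩ _ m g)
    have e3 := (ft w hw _).symm.trans (e2.trans (ft w hw g))
    rw [← sub_eq_zero, ← sub_smul] at e3
    exact hg.smul_eq_zero.1 e3

end Vale.Agent.P022E.Fm.Sb

namespace Vale.Agent.P022E.Fm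

open Vale.Agent.P022D.V Vale.Agent.P022E.V Vale.Agent.P022D.As Vale.Agent.P022E.As

variable {O F : Type} [CommRing O] [IsLocalRing O] [Co O] [Field F] [CharP F 2] {U : Su O F}
  [hC : ∀ l : U.L.C, Fact l.1.Prime] {Cc : ∀ l : U.L.C, P022D.Rep.Ch (ZMod l.1) F}

/-- row SBR -/
theorem sbrF [Finite F] (hE : GEN O) (hD : DIV O) (hP : PAR O) (hV : DESCV O) (hG : P022D.Gt.GT O)
    (hU : U.OkF) (hc : U.IsCh Cc) : SBR U Cc := fun r => by
  obtain ⟨b, hb⟩ := Sb.sbF hE hD hP hV hG hU r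
  exact ⟨b, fun n q P i => hb n P.M q P.b P.τ P.lv P.X P.ok P.u P.dia Cc hc i _ fun _ h => h.1⟩

end Vale.Agent.P022E.Fm
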