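import Vale.Agent.P022E.Fm.Forms0
import Vale.Agent.P022F.Pt.Base
import Vale.Agent.P022F.Pt.FmAc0
import Vale.Agent.P022F.Pt.FmAsm
import Vale.Agent.P022F.Pt.FmBigr
import Vale.Agent.P022F.Pt.FmChR
import Vale.Agent.P022F.Pt.FmCls
import Vale.Agent.P022F.Pt.FmCut
import Vale.Agent.P022F.Pt.FmDia
import Vale.Agent.P022F.Pt.FmDic
import Vale.Agent.P022F.Pt.FmDt0
import Vale.Agent.P022F.Pt.FmDvw
import Vale.Agent.P022F.Pt.FmFibZ
import Vale.Agent.P022F.Pt.FmGmr
import Vale.Agent.P022F.Pt.FmGopC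
import Vale.Agent.P022F.Pt.FmHc
import Vale.Agent.P022F.Pt.FmHz
import Vale.Agent.P022F.Pt.FmNonv
import Vale.Agent.P022F.Pt.FmNwf
import Vale.Agent.P022F.Pt.FmPrj
import Vale.Agent.P022F.Pt.FmRows
import Vale.Agent.P022F.Pt.FmSb

/-!
# P022D, forms side: all rows from the last ones
-/

set_option linter.all false

noncomputable section

namespace Vale.Agent.P022E.Fm

theorem rw_ofF {O F : Type} [CommRing O] [IsDomain O] [IsDiscreteValuationRing O] [P022D.Core.Coef O]
    [P022D.V.Co O] [Field F] [Finite F] [CharP F 2] {U : Su O F} [∀ l : U.L.C, Fact l.1.Prime]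
    (hU : U.OkF) {Cc : ∀ l : U.L.C, P022D.Rep.Ch (ZMod l.1) F} (hc : U.IsCh Cc) (nz : NZ0 U) :
    Rw U Cc := by
  have hH := hcCF hU
  have lq := lqCF hU
  have dia := diaCF hU
  have cls := clsCF hU
  have dic := dicCF hU hc hH
  have cut := cutCF hU hH lq
  have hz := hzCF hU lq dic dia nz cut
  have gt := Gt.gt0 O
  have nw := P022D.Nw.newdC O
  have sb := sbrF (P022D.V.All.gen O) (P022D.V.All.div O) (P022D.V.par O) (P022D.V.All.descv O) gt hU hc
  have gop := gopCF hU
  have red := redCF hU hc (dvwCF hU hc hH lq (dv0CF hU) cut nz)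
  exact
    { hc := hH
      gop := gop
      lq := lq
      act := Ac.actHF hU
      gmr := gmrCF hU hH lq cls dia
      dia := dia
      exf := exfH dia hz
      red := red
      cyf := cyfCF hU cls
      urf := urf6F hU lq dic
      nwf := nwfCF hU nw gt lq dic hz
      fib := fibCF hU gt gop dia cls Cc
      dsc := dscCF hU gt gop dia cls
      sbr := sb
      dt0 := dt0CF hU cls red
      big := bigrCF hU nz cut hz sb (nonvCF hU Cc) }

/-- **the forms side from the row `NZ0`** -/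
theorem forms_nzF (h : ∀ (O F : Type) [CommRing O] [IsDomain O] [IsDiscreteValuationRing O]
    [P022D.Core.Coef O] [P022D.V.Co O] [Field F] [Finite F] [CharP F 2] (U : Su O F)
    [∀ l : U.L.C, Fact l.1.Prime], U.OkF → NZ0 U) : FORMSF :=
  forms_ofF fun O F _ _ _ _ _ _ _ _ U _ hU => ⟨chCF hU, fun _ hc => rw_ofF hU hc (h O F U hU)⟩

end Vale.Agent.P022E.Fm
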