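import Vale.Agent.P022E.Fm.OpA
import Vale.Agent.P022F.Pt.Base

/-!
# P022D, forms side: existence of the Galois operators
-/

set_option linter.all false

open Matrix IsLocalRing
open scoped MatrixGroups NumberField Pointwise

noncomputable section

namespace Vale.Agent.P022E.Fm

open Vale.Agent.P022 Vale.Agent.P022D.V Vale.Agent.P022E.V Vale.Agent.P022.H853
open Vale.Agent.P022D.G (Wd wT wS Inert)
open Vale.Agent.P027M.S (mx)

namespace OpP

section fin

variable {O F : Type} [CommRing O] [Field F]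

end fin

variable {O F : Type} [CommRing O] [Co O] [Field F] {M : ℕ}

section ok

variable [IsLocalRing O] {U : Su O F} (hU : U.OkF)
include hU

theorem tr_frF {l : ℕ} (hl : l.Prime) (h : l ∉ U.S.T) {φ : GQ} (hφ : IsFrob l φ) :
    U.tr (P022D.Fm.fr l) = U.tr φ ∧ U.dt (P022D.Fm.fr l) = U.dt φ := by
  obtain ⟨g, s, hs, e⟩ := frob_cj hl hφ (fr_frob hl)
  have e2 := congrArg U.L.r e
  rw [map_mul, map_mul, map_mul, hU.unr l hl h s hs, one_mul] at e2
  have e3 : U.L.r g⁻¹ * U.L.r g = 1 := by rw [← map_mul, inv_mul_cancel, map_one]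
  unfold Su.tr Su.dt
  rw [← e2]
  refine ⟨by rw [Matrix.trace_mul_cycle, e3, one_mul], ?_⟩
  rw [Matrix.det_mul, Matrix.det_mul, mul_right_comm, mul_comm (det _) (det (U.L.r g⁻¹)),
    ← Matrix.det_mul, e3, Matrix.det_one, one_mul]

theorem red_trF (g : GQ) : U.S.red (U.tr g) = (mx U.S.rb g).trace ∧
    U.S.red (U.dt g) = (mx U.S.rb g).det := by
  rw [← hU.ok.lift g]
  exact ⟨by rw [Su.tr, Matrix.trace_fin_two, Matrix.trace_fin_two, map_add]; rfl,
    RingHom.map_det _ _⟩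

theorem cg_ofF {g x : GQ} (h : U.S.rb g = U.S.rb x) :
    U.ϖ ∣ U.tr g - U.tr x ∧ U.ϖ ∣ U.dt g - U.dt x := by
  have e : mx U.S.rb g = mx U.S.rb x := by unfold mx; rw [h]
  exact ⟨hU.uni.dvd _ ((hU.ok.ker _).1 (by rw [map_sub, (red_trF hU g).1, (red_trF hU x).1, e, sub_self])),
    hU.uni.dvd _ ((hU.ok.ker _).1 (by rw [map_sub, (red_trF hU g).2, (red_trF hU x).2, e, sub_self]))⟩

theorem ex_l0F [CharP F 2] (S : Finset ℕ) :
    ∃ l : ℕ, l.Prime ∧ l ∉ S ∧ l ∉ U.S.T ∧ IsUnit (U.tr (P022D.Fm.fr l)) := by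
  classical
  obtain ⟨g, hne⟩ : ∃ g, mx U.S.rb g 0 0 ≠ mx U.S.rb g 1 1 := ⟨_, U.S.dne⟩
  obtain ⟨l, φ, k, hl, hS, hφ, hu⟩ := P022D.G.frob U.S.rb.ker inferInstance hU.ok.dh.opn g (S ∪ U.S.T)
  rw [Finset.mem_union, not_or] at hS
  refine ⟨l, hl, hS.1, hS.2, ?_⟩
  rw [(tr_frF hU hl hS.2 hφ).1]
  by_contra hn
  have h0 : U.S.red (U.tr φ) = 0 := (hU.ok.ker _).2 hn
  have key : ∀ k : ℕ, U.S.red (U.tr (φ ^ k)) = 0 ∧ U.S.red (U.tr (φ ^ (k + 1))) = 0 := fun k => by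
    induction k with
    | zero =>
      refine ⟨?_, by rw [zero_add, pow_one, h0]⟩
      rw [pow_zero, Su.tr, map_one, Matrix.trace_one, Fintype.card_fin, map_natCast]
      exact CharP.cast_eq_zero F 2
    | succ k ih =>
      refine ⟨ih.2, ?_⟩
      have a := ih.1
      unfold Su.tr at a h0 ⊢
      rw [tf_mat, map_sub, map_mul, map_mul, h0, a, zero_mul, mul_zero, sub_zero]
  have e : U.S.rb g = U.S.rb (φ ^ k) := by
    rw [MonoidHom.mem_ker, map_mul, map_inv, inv_mul_eq_one] at hu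
    exact hu
  have h1 := (key k).1
  have e2 : mx U.S.rb (φ ^ k) = mx U.S.rb g := by unfold mx; rw [e]
  rw [(red_trF hU _).1, e2, Matrix.trace_fin_two, CharTwo.add_eq_zero] at h1
  exact hne h1

end ok

end OpP

end Vale.Agent.P022E.Fm
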