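import Vale.Agent.P022E.Fm.Gop
import Vale.Agent.P022F.Pt.Base
import Vale.Agent.P022F.Pt.FmOpA

/-!
# P022D, forms side: row GOP
-/

set_option linter.all false

open IsLocalRing
open scoped MatrixGroups NumberField Pointwise

noncomputable section

namespace Vale.Agent.P022E.Fm

open Vale.Agent.P022 Vale.Agent.P022D.V Vale.Agent.P022E.V Vale.Agent.P022.H853
open Vale.Agent.P022D.G (Wd wT wS Inert)
open Vale.Agent.P027M.S (mx)
open Vale.Agent.P022D.Gt (Xo Ga)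

namespace OpP

variable {O F : Type} [CommRing O] [Co O] [Field F] {M : ℕ}

/-- the operators are congruent to the values at the point -/
theorem nilBF [IsLocalRing O] {U : Su O F} (hU : U.OkF) {B Y : Type} [CommRing B] [Algebra O B]
    [AddCommGroup Y] [Module B Y] {t : GQ → B} {d : GQ →* Bˣ} (tf : H346.TF t d) (S : Finset ℕ)
    (v : Y) (opn : ∃ V : Subgroup GQ, V.Normal ∧ IsOpen (V : Set GQ) ∧
      ∀ u ∈ V, (d u : B) • v = v ∧ ∀ g, t (g * u) • v = t g • v)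
    (h0 : ∃ k : ℕ, algebraMap O B U.ϖ ^ k • v = 0)
    (fr' : ∀ (l : ℕ) φ, l.Prime → l ∉ S → IsFrob l φ →
      (∃ k : ℕ, (t φ - algebraMap O B (U.tr φ)) ^ k • v = 0) ∧
      ∃ k : ℕ, ((d φ : B) - algebraMap O B (U.dt φ)) ^ k • v = 0) (g : GQ) :
    ∃ k : ℕ, (t g - algebraMap O B (U.tr g)) ^ k • v = 0 ∧
      ((d g : B) - algebraMap O B (U.dt g)) ^ k • v = 0 := by
  let I := (Ideal.torsionOf B Y v).radical
  have mI : ∀ x : B, x ∈ I ↔ ∃ k : ℕ, x ^ k • v = 0 := fun x => Iff.rfl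
  obtain ⟨V, n, o, e⟩ := opn
  obtain ⟨l, φ, k, hl, hS, hφ, hu⟩ := P022D.G.frob (V ⊓ U.S.rb.ker) inferInstance
    (o.inter hU.ok.dh.opn) g S
  obtain ⟨a, b⟩ := fr' l φ hl hS hφ
  rw [← mI, ← Ideal.Quotient.eq] at a b
  let π := Ideal.Quotient.mk I
  have kt : ∀ k : ℕ, π (t (φ ^ k)) = π (algebraMap O B (U.tr (φ ^ k))) ∧
      π (t (φ ^ (k + 1))) = π (algebraMap O B (U.tr (φ ^ (k + 1)))) := fun k => by
    induction k with
    | zero =>
      refine ⟨?_, by rw [zero_add, pow_one]; exact a⟩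
      rw [pow_zero, tf.one, Su.tr, map_one, Matrix.trace_one, Fintype.card_fin, map_natCast,
        Nat.cast_ofNat]
    | succ k ih =>
      refine ⟨ih.2, ?_⟩
      have x := ih.1
      have y := ih.2
      unfold Su.tr Su.dt at *
      rw [P022D.G.SubA.step tf, tf_mat]
      simp only [map_sub, map_mul]
      rw [x, y, show π _ = π _ from a, show π _ = π _ from b]
  have kd : π (d (φ ^ k) : B) = π (algebraMap O B (U.dt (φ ^ k))) := by
    unfold Su.dt at *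
    rw [map_pow, map_pow, Units.val_pow_eq_pow_val, Matrix.det_pow, map_pow, map_pow, map_pow,
      show π _ = π _ from b]
  have er : U.S.rb g = U.S.rb (φ ^ k) := by
    have := (Subgroup.mem_inf.1 hu).2
    rw [MonoidHom.mem_ker, map_mul, map_inv, inv_mul_eq_one] at this
    exact this
  have hp : ∀ x y : O, U.ϖ ∣ x - y → π (algebraMap O B x) = π (algebraMap O B y) := by
    rintro x y ⟨c, hc⟩
    rw [Ideal.Quotient.eq, ← map_sub, hc, map_mul]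
    exact I.mul_mem_right _ ((mI _).2 h0)
  have eg : φ ^ k = g * (g⁻¹ * φ ^ k) := by rw [mul_inv_cancel_left]
  have e1 : π (t g) = π (t (φ ^ k)) := by
    rw [Ideal.Quotient.eq, mI]
    exact ⟨1, by rw [pow_one, sub_smul, eg, (e _ hu.1).2, sub_self]⟩
  have e2 : π (d g : B) = π (d (φ ^ k) : B) := by
    rw [Ideal.Quotient.eq, mI]
    exact ⟨1, by rw [pow_one, sub_smul, eg, map_mul, Units.val_mul, mul_smul, (e _ hu.1).1, sub_self]⟩
  obtain ⟨k1, h1⟩ := (mI _).1 (Ideal.Quotient.eq.1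
    (e1.trans ((kt k).1.trans (hp _ _ (cg_ofF hU er).1).symm)))
  obtain ⟨k2, h2⟩ := (mI _).1 (Ideal.Quotient.eq.1 (e2.trans (kd.trans (hp _ _ (cg_ofF hU er).2).symm)))
  exact ⟨k1 + k2, by rw [add_comm, pow_add, mul_smul, h1, smul_zero],
    by rw [pow_add, mul_smul, h2, smul_zero]⟩

variable [IsDomain O] [IsDiscreteValuationRing O] [Finite F] [CharP F 2] {U : Su O F}

theorem hqF (hU : U.OkF) (a : ℕ) : Finite (O ⧸ Ideal.span {(2 : O) ^ a}) :=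
  fin_quo U.S.red hU.ok.ker (two_ne' a)

theorem two_dvdF (hU : U.OkF) (a : ℕ) : ∃ k, (2 : O) ^ a ∣ U.ϖ ^ k := by
  have hi : Irreducible U.ϖ := (IsDiscreteValuationRing.irreducible_iff_uniformizer _).2 (le_antisymm
    (fun x hx => Ideal.mem_span_singleton.2 (hU.uni.dvd x hx))
    ((Ideal.span_singleton_le_iff_mem _).2 hU.uni.nu))
  obtain ⟨n, u, e⟩ := IsDiscreteValuationRing.eq_unit_mul_pow_irreducible (two_ne' (O := O) a) hi
  exact ⟨n, by rw [e]; exact (Units.mul_left_dvd).2 dvd_rfl⟩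

theorem XP_leF (hU : U.OkF) (hD : DIV O) {l : ℕ} (lv : P022D.Gt.Lv M l) {S : Finset ℕ} (hl : l ∉ S)
    (hu : IsUnit (U.tr (P022D.Fm.fr l))) : U.XP M S ≤ Xo O M U.i l := fun v hv => by
  obtain ⟨a, ha⟩ := P022D.Gt.ex_two hD lv.odd lv.three le_rfl ⟨v, hv.1⟩
  have h := (mem_Pm.1 hv.2 ⟨l, lv.prime, lv.nd⟩ hl).1
  rw [bw_T, uP_cl] at h
  exact ⟨hv.1, per (hqF hU) hu h (congrArg Subtype.val ha)⟩

/-- the operators on `XP M S` -/
theorem exXF (hU : U.OkF) (hD : DIV O) (hK : HKV O) [NeZero M] {l : ℕ} (lv : P022D.Gt.Lv M l)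
    {S : Finset ℕ} (le : U.XP M S ≤ Xo O M U.i l) {t d : GQ → Module.End O (Xo O M U.i l)}
    (h : Ga M U.i l t d) :
    ∃ (t' : GQ → P022D.Fm.BT (P022D.Fm.HA O M U.N U.i) (U.XP M S)) (d' : GQ →* (P022D.Fm.BT (P022D.Fm.HA O M U.N U.i) (U.XP M S))ˣ),
      H346.TF t' d' ∧ (∀ g (v : U.XP M S),
      Submodule.inclusion le (t' g • v) = t g (Submodule.inclusion le v) ∧
      Submodule.inclusion le ((d' g : P022D.Fm.BT (P022D.Fm.HA O M U.N U.i) (U.XP M S)) • v) =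
        d g (Submodule.inclusion le v)) ∧
      ∀ g (v : U.XP M S), ∃ k : ℕ, (t' g - algebraMap O _ (U.tr g)) ^ k • v = 0 ∧
        ((d' g : P022D.Fm.BT (P022D.Fm.HA O M U.N U.i) (U.XP M S)) - algebraMap O _ (U.dt g)) ^ k • v = 0 := by
  classical
  obtain ⟨t', d', tf, k⟩ := exB (N := U.N) h (U.XP M S) le fun ℓ v hv => XP_TS hK U lv.odd S ℓ hv
  have ji := Submodule.inclusion_injective le
  refine ⟨t', d', tf, k, fun g v => nilBF hU tf (S ∪ (U.S.T ∪ (2 * M).primeFactors)) v ?_ ?_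
    (fun p φ hp hS hφ => ?_) g⟩
  · obtain ⟨V, n, o, e⟩ := h.law.opn (Submodule.inclusion le v)
    exact ⟨V, n, o, fun u hu => ⟨ji (by rw [(k u v).2, (e u hu).1]),
      fun g => ji (by rw [(k _ v).1, (k _ v).1, (e u hu).2])⟩⟩
  · obtain ⟨a, ha⟩ := P022D.Gt.ex_two hD lv.odd lv.three (V := U.XP M S) inf_le_left v
    obtain ⟨j, c, hc⟩ := two_dvdF hU a
    refine ⟨j, ?_⟩
    rw [← map_pow, P022D.Fm.BT.alg_smul, hc, mul_comm, mul_smul, ← Nat.cast_ofNat, ← Nat.cast_pow,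
      Nat.cast_smul_eq_nsmul, ha, smul_zero]
  · rw [Finset.mem_union, Finset.mem_union, not_or, not_or] at hS
    have m := P022D.Gt.not_mem_pf (NeZero.ne M) hp hS.2.2
    obtain ⟨x, y⟩ := mem_Pm.1 v.2.2 ⟨p, hp, m⟩ hS.1
    obtain ⟨a, ha⟩ := P022D.Fm.mem_Nl.1 x
    obtain ⟨b, hb⟩ := P022D.Fm.mem_Nl.1 y
    rw [bw_T, uP_cl] at ha
    rw [bw_S, uP_cl] at hb
    obtain ⟨e1, e2⟩ := tr_frF hU hp hS.2.1 hφ
    refine ⟨⟨a, Subtype.ext ?_⟩, ⟨b, Subtype.ext ?_⟩⟩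
    · rw [pow_act (fun w => (congrArg Subtype.val (k φ w).1).trans (h.fr hp m hφ _).1), ← e1]
      exact ha
    · rw [pow_act (fun w => (congrArg Subtype.val (k φ w).2).trans (h.fr hp m hφ _).2), ← e2]
      exact hb

theorem ex_lvF (hU : U.OkF) (hM : Odd M) (h3 : 3 ≤ M) (S : Finset ℕ) :
    ∃ l, P022D.Gt.Lv M l ∧ l ∉ S ∧ IsUnit (U.tr (P022D.Fm.fr l)) := by
  classical
  obtain ⟨l, hl, hS, -, hu⟩ := ex_l0F hU (S ∪ (2 * M).primeFactors)
  rw [Finset.mem_union, not_or] at hS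
  exact ⟨l, ⟨hM, h3, hl, P022D.Gt.not_mem_pf hM.pos.ne' hl hS.2⟩, hS.1, hu⟩

theorem XP_eqF (hU : U.OkF) (hT : P022D.Gt.GT O) (hD : DIV O) (hK : HKV O) (hM : Odd M) (h3 : 3 ≤ M)
    (S : Finset ℕ) : U.XP M S = U.GG M := by
  haveI : NeZero M := ⟨hM.pos.ne'⟩
  refine le_antisymm (fun v hv => ⟨hv.1, mem_Pm.2 fun ℓ _ => ?_⟩)
    fun v hv => ⟨hv.1, mem_Pm.2 fun ℓ _ => mem_Pm.1 hv.2 ℓ (Finset.notMem_empty _)⟩
  obtain ⟨l, lv, hl, hu⟩ := ex_lvF hU hM h3 S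
  obtain ⟨t, d, h⟩ := hT M U.i l lv
  obtain ⟨t', d', -, k, nil⟩ := exXF hU hD hK lv (XP_leF hU hD lv hl hu) h
  obtain ⟨j, a, b⟩ := nil (P022D.Fm.fr ℓ.1) ⟨v, hv⟩
  have hφ := fr_frob ℓ.2.1
  have a' := congrArg Subtype.val a
  have b' := congrArg Subtype.val b
  rw [pow_act (fun w => (congrArg Subtype.val (k _ w).1).trans (h.fr ℓ.2.1 ℓ.2.2 hφ _).1)] at a'
  rw [pow_act (fun w => (congrArg Subtype.val (k _ w).2).trans (h.fr ℓ.2.1 ℓ.2.2 hφ _).2)] at b'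
  rw [bw_T, bw_S, uP_cl]
  exact ⟨P022D.Fm.mem_Nl.2 ⟨j, a'⟩, P022D.Fm.mem_Nl.2 ⟨j, b'⟩⟩

theorem exOpF (hU : U.OkF) (hT : P022D.Gt.GT O) (hD : DIV O) (hK : HKV O) (hV : DESCV O) (hM : Odd M)
    (h3 : 3 ≤ M) : ∃ (t : GQ → U.B M) (d : GQ →* (U.B M)ˣ), U.Op t d := by
  haveI : NeZero M := ⟨hM.pos.ne'⟩
  obtain ⟨l, lv, hl, hu⟩ := ex_lvF hU hM h3 ∅
  obtain ⟨t, d, h⟩ := hT M U.i l lv
  have le : U.GG M ≤ Xo O M U.i l := XP_leF hU hD lv hl hu
  obtain ⟨t', d', tf, k, nil⟩ : ∃ (t' : GQ → U.B M) (d' : GQ →* (U.B M)ˣ),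
      H346.TF t' d' ∧ (∀ g (v : U.GG M),
      Submodule.inclusion le (t' g • v) = t g (Submodule.inclusion le v) ∧
      Submodule.inclusion le ((d' g : U.B M) • v) = d g (Submodule.inclusion le v)) ∧
      ∀ g (v : U.GG M), ∃ k : ℕ, (t' g - algebraMap O _ (U.tr g)) ^ k • v = 0 ∧
        ((d' g : U.B M) - algebraMap O _ (U.dt g)) ^ k • v = 0 := exXF hU hD hK lv le h
  have ji := Submodule.inclusion_injective le
  have kt : ∀ g (v : U.GG M), ((t' g • v : U.GG M) : P022D.Fm.AM O M) = t g (Submodule.inclusion le v) :=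
    fun g v => congrArg Subtype.val (k g v).1
  have kd : ∀ g (v : U.GG M), (((d' g : U.B M) • v : U.GG M) : P022D.Fm.AM O M) =
      d g (Submodule.inclusion le v) := fun g v => congrArg Subtype.val (k g v).2
  have cu : ∀ {s : GQ} {u : (ZMod M)ˣ}, P022D.Fm.Cy M s (u : ZMod M).val → cyc M s = u := fun e =>
    cy_eq e (ZMod.natCast_zmod_val _).symm
  refine ⟨t', d', tf, fun v => ?_, fun ℓ φ hφ v => ?_, fun ℓ φ hφ v => ?_, fun v => ?_, nil,
    fun v => ?_, fun p hp p2 s hs u e v => ?_, fun c hc => P022D.Fm.BT.ext fun v => ji ?_,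
    fun M₀ q sp s hs u e v hv => ?_, fun M₀ q sp s hs v hv g => ji ?_⟩
  · let V : Subgroup GQ :=
      { carrier := {u | (d' u : U.B M) • v = v ∧ ∀ g, t' (g * u) • v = t' g • v}
        one_mem' := ⟨by rw [map_one, Units.val_one, one_smul], fun g => by rw [mul_one]⟩
        mul_mem' := fun {a b} x y => ⟨by rw [map_mul, Units.val_mul, mul_smul, y.1, x.1],
          fun g => by rw [← mul_assoc, y.2, x.2]⟩
        inv_mem' := fun {a} x => ⟨by
            conv_lhs => rw [← x.1]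
            rw [smul_smul, ← Units.val_mul, ← map_mul, inv_mul_cancel, map_one, Units.val_one,
              one_smul],
          fun g => by rw [← x.2, inv_mul_cancel_right]⟩ }
    obtain ⟨W, -, o, e⟩ := h.law.opn (Submodule.inclusion le v)
    refine ⟨V, ⟨fun a x b => ⟨?_, fun g => ?_⟩⟩, Subgroup.isOpen_mono (fun u hu =>
      ⟨ji (by rw [(k u v).2, (e u hu).1]), fun g => ji (by rw [(k _ v).1, (k _ v).1, (e u hu).2])⟩) o,
      fun ℓ s hs => ?_, fun u hu => hu⟩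
    · rw [map_mul, map_mul, mul_right_comm, ← map_mul, mul_inv_cancel, map_one, one_mul]
      exact x.1
    · rw [show g * (b * a * b⁻¹) = g * b * a * b⁻¹ by group, tf.comm,
        show b⁻¹ * (g * b * a) = b⁻¹ * (g * b) * a by group, x.2, tf.comm, mul_inv_cancel_right]
    · obtain ⟨a, b⟩ := h.unr ℓ.1 ℓ.2.1 ℓ.2.2 s hs
      exact ⟨ji (by rw [(k s v).2, a]; rfl), fun g => ji (by rw [(k _ v).1, (k _ v).1, b])⟩
  · rw [kt, uP_cl]
    exact (h.fr ℓ.2.1 ℓ.2.2 hφ _).1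
  · rw [kd, uP_cl]
    exact (h.fr ℓ.2.1 ℓ.2.2 hφ _).2
  · obtain ⟨s, hv, cl⟩ := h.fin (Submodule.inclusion le v)
    let A : Submodule O (P022D.Fm.AM O M) := Submodule.span O ((Xo O M U.i l).subtype '' s)
    have hA : (A : Set (P022D.Fm.AM O M)).Finite := fin_span (hqF hU) (s.finite_toSet.image _) (by
      rintro _ ⟨w, -, rfl⟩
      obtain ⟨a, ha⟩ := P022D.Gt.ex_two hD hM h3 P022D.Gt.Xo_le w
      exact ⟨a, congrArg Subtype.val ha⟩)
    have gen : ∀ f : Module.End O (P022D.Fm.AM O M), (∀ w ∈ s, ∃ w' ∈ s, (w' : P022D.Fm.AM O M) = f w) →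
        ∀ w ∈ A, f w ∈ A := fun f hf w hw => by
      refine (Submodule.span_le.2 ?_ : A ≤ A.comap f) hw
      rintro _ ⟨x, hx, rfl⟩
      obtain ⟨y, hy, e⟩ := hf x hx
      exact Submodule.subset_span ⟨y, hy, e⟩
    have st : ∀ f ∈ P022D.Fm.HA O M U.N U.i, ∀ w ∈ A, f w ∈ A := fun f hf =>
      HA_ind (fun f => ∀ w ∈ A, f w ∈ A) (fun c w hw => A.smul_mem c hw)
        (fun a b x y w hw => A.add_mem (x w hw) (y w hw)) (fun a b x y w hw => x _ (y w hw))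
        (fun ℓ => ⟨gen _ fun w hw => ⟨_, ((cl w hw).1 (P022D.Fm.fr ℓ.1)).1, by
            rw [uP_cl]; exact (h.fr ℓ.2.1 ℓ.2.2 (fr_frob ℓ.2.1) w).1⟩,
          gen _ fun w hw => ⟨_, ((cl w hw).1 (P022D.Fm.fr ℓ.1)).2, by
            rw [uP_cl]; exact (h.fr ℓ.2.1 ℓ.2.2 (fr_frob ℓ.2.1) w).2⟩⟩)
        (fun a b _ => gen _ fun w hw => ⟨P022D.Gt.rX hK hD lv U.i (dg a b) w,
          (cl w hw).2 (dg a b) _ rfl, rfl⟩) hf
    refine Set.Finite.to_subtype ((hA.preimage Subtype.val_injective.injOn).subset fun w hw => ?_)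
    obtain ⟨e, rfl⟩ := Submodule.mem_span_singleton.1 hw
    obtain ⟨f, hf, e1⟩ := e.loc {v}
    change (e.op v : P022D.Fm.AM O M) ∈ A
    rw [e1 v (Finset.mem_singleton_self v)]
    exact st f (cm_HA (O := O) (M := M) U.N U.i ▸ hf) _ (Submodule.subset_span ⟨_, hv, rfl⟩)
  · obtain ⟨a, ha⟩ := P022D.Gt.ex_two hD hM h3 P022D.Gt.Xo_le (Submodule.inclusion le v)
    refine ⟨a + 1, fun g x u hx hu e => ?_⟩
    rw [kd, h.det a x g _ ha hx (cy_dvd (dvd_mul_right _ _) e),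
      cy_eq (cy_dvd (dvd_mul_left _ _) e) hu]
    rfl
  · rw [kd, h.dI hD lv hp p2 hs, cu e]
    rfl
  · rw [(k c v).2, h.dc c hc, neg_smul, one_smul, map_neg]
    rfl
  · rw [kt, h.i1 M₀ q sp s hs _ hv, cu e]
    rfl
  · rw [(k _ v).1, (k _ v).1, unl' hT hK hV lv h sp hs _ hv]

end OpP

/-- **row GOP** -/
theorem gopF {O F : Type} [CommRing O] [IsDomain O] [IsDiscreteValuationRing O] [Co O] [Field F]
    [Finite F] [CharP F 2] {U : Su O F} (hU : U.OkF) (hT : P022D.Gt.GT O) (hD : DIV O) (hK : HKV O)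
    (hV : DESCV O) : GOP U := fun M hM h3 =>
  ⟨OpP.exOpF hU hT hD hK hV hM h3, OpP.XP_eqF hU hT hD hK hM h3⟩

end Vale.Agent.P022E.Fm
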