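import Vale.Agent.P022E.Fm.GopC
import Vale.Agent.P022F.Pt.Base
import Vale.Agent.P022F.Pt.FmGop

/-!
# P022D, forms side: rows GT, GOP closed
-/

set_option linter.all false

namespace Vale.Agent.P022E

theorem Fm.gopCF {O F : Type} [CommRing O] [IsDomain O] [IsDiscreteValuationRing O] [P022D.V.Co O]
    [Field F] [Finite F] [CharP F 2] {U : Fm.Su O F} (hU : U.OkF) : Fm.GOP U :=
  Fm.gopF hU (Gt.gt0 O) (P022D.V.All.div O) (P022D.V.All.hkv O) (P022D.V.All.descv O)

end Vale.Agent.P022E
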